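import Mathlib
import Vale.Agent.P154.Defs

/-! Definitions for arbitrary Galton-Watson laws and arbitrary locally finite rooted trees. -/

namespace Vale.Agent.P154.UT

open scoped ENNReal

/-- The mean of an offspring law, in `[0, ∞]`. -/
noncomputable def offspringMean (ν : ℕ → ℝ) : ℝ≥0∞ := ∑' k : ℕ, ENNReal.ofReal (ν k) * k

/-- A locally finite rooted (planar) tree is given by its child numbers `κ`: a vertex is the list
of the indices of the children chosen on the way from the root, and the vertex `x` has `κ x`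
children, with indices `0, ..., κ x - 1`. Here: `x` is a vertex of the tree `κ`. -/
def IsVertex : (List ℕ → ℕ) → List ℕ → Prop
  | _, [] => True
  | κ, c :: l => c < κ [] ∧ IsVertex (fun l' => κ (c :: l')) l

/-- The tree `κ` cut at distance `n` from the root. -/
def cut : (n : ℕ) → (List ℕ → ℕ) → Tree n
  | 0, _ => ()
  | n + 1, κ => ⟨κ [], fun c => cut n (fun l => κ ((c : ℕ) :: l))⟩

/-- `ξ 0, ξ 1, ...` are the indices of the children chosen along an infinite path (ray) which
starts at the root. -/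
def IsRay (κ : List ℕ → ℕ) (ξ : ℕ → ℕ) : Prop := ∀ n, IsVertex κ ((List.range n).map ξ)

/-- A cutset: a finite set of vertices which meets every ray. -/
def IsCutset (κ : List ℕ → ℕ) (Γ : Finset (List ℕ)) : Prop :=
  (∀ x ∈ Γ, IsVertex κ x) ∧ ∀ ξ, IsRay κ ξ → ∃ n, (List.range n).map ξ ∈ Γ

/-- The branching number (Lyons): the supremum of the `β > 0` for which `∑_{x ∈ Γ} β^(-|x|)` is
bounded below by a positive constant, uniformly over all cutsets `Γ`. -/
noncomputable def br (κ : List ℕ → ℕ) : ℝ≥0∞ :=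
  sSup {b : ℝ≥0∞ | ∃ β : ℝ, 0 < β ∧ b = ENNReal.ofReal β ∧
    ∃ ε : ℝ, 0 < ε ∧ ∀ Γ : Finset (List ℕ), IsCutset κ Γ → ε ≤ ∑ x ∈ Γ, (1 / β) ^ x.length}

/-- The number of vertices of the tree `κ` at distance `n` from the root. -/
def levelSize : (n : ℕ) → (List ℕ → ℕ) → ℕ
  | 0, _ => 1
  | n + 1, κ => ∑ c : Fin (κ []), levelSize n (fun l => κ ((c : ℕ) :: l))

/-- The quantity `a_n` for the fixed tree `κ`: `E (1/2) ∑_i |P(σ_ρ = i | σ_{L_n}) - 1/q|`. -/
noncomputable def treeAdvantage (κ : List ℕ → ℕ) (q : ℕ) (lam : ℝ) (n : ℕ) : ℝ :=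
  ∑ η : Spins q n (cut n κ), evid q lam n (cut n κ) η *
    ((1 / 2) * ∑ i : Fin q, |post q lam n (cut n κ) η i - 1 / q|)

/-- Reconstruction on the tree `κ`: `a_n` has a positive limit. -/
def TreeReconstruction (κ : List ℕ → ℕ) (q : ℕ) (lam : ℝ) : Prop :=
  ∃ l : ℝ, 0 < l ∧ Filter.Tendsto (treeAdvantage κ q lam) Filter.atTop (nhds l)

/-- Nonreconstruction on the tree `κ`: `a_n` tends to zero. -/
def TreeNonreconstruction (κ : List ℕ → ℕ) (q : ℕ) (lam : ℝ) : Prop :=
  Filter.Tendsto (treeAdvantage κ q lam) Filter.atTop (nhds 0)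

end Vale.Agent.P154.UT
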