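import Mathlib
import Vale.Agent.P154.Bdl.B6
import Vale.Agent.P154.H928.Defs

/-! Reconstruction from a flow: lower bound for the advantage of a fixed tree. -/

namespace Vale.Agent.P154.UT

open scoped ENNReal
open Vale.Agent.P154.KS

variable {q : ℕ}

/-- strength of a flow from the root to level `n` through capacities `β ^ (-|x|)` -/
noncomputable def mf (β : ℝ) : (n : ℕ) → Tree n → ℝ
  | 0, _ => 1
  | n + 1, ⟨_, t⟩ => min 1 ((1 / β) * ∑ c, mf β n (t c))

lemma mf_zero (β : ℝ) (t : Tree 0) : mf β 0 t = 1 := rfl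

lemma mf_succ (β : ℝ) {n k : ℕ} (t : Fin k → Tree n) :
    mf β (n + 1) (node t) = min 1 ((1 / β) * ∑ c, mf β n (t c)) := rfl

lemma mf_nonneg {β : ℝ} (hβ : 0 < β) : ∀ (n : ℕ) (t : Tree n), 0 ≤ mf β n t
  | 0, _ => zero_le_one
  | n + 1, t => by
      obtain ⟨k, s, rfl⟩ := exists_node t
      rw [mf_succ]
      exact le_min zero_le_one (mul_nonneg (by positivity)
        (Finset.sum_nonneg fun c _ => mf_nonneg hβ n (s c)))

lemma mf_le_one {β : ℝ} : ∀ (n : ℕ) (t : Tree n), mf β n t ≤ 1
  | 0, _ => le_rfl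
  | n + 1, t => by
      obtain ⟨k, s, rfl⟩ := exists_node t
      rw [mf_succ]
      exact min_le_left _ _

/-- the weight of the child `c` -/
noncomputable def wt (β : ℝ) {n k : ℕ} (t : Fin k → Tree n) (c : Fin k) : ℝ :=
  mf β n (t c) / ∑ c', mf β n (t c')

/-- the unbiased linear statistic of the flow -/
noncomputable def stat (β lam : ℝ) (v : Fin q → ℝ) : (n : ℕ) → (t : Tree n) → Spins q n t → ℝ
  | 0, _, η => v (show Fin q from η)
  | n + 1, ⟨_, t⟩, η => ∑ c, wt β t c * lam⁻¹ * stat β lam v n (t c) (η c)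

lemma stat_zero (β lam : ℝ) (v : Fin q → ℝ) (t : Tree 0) (j : Fin q) :
    stat β lam v 0 t (sleaf j) = v j := rfl

lemma stat_succ (β lam : ℝ) (v : Fin q → ℝ) {n k : ℕ} (t : Fin k → Tree n)
    (η : (c : Fin k) → Spins q n (t c)) :
    stat β lam v (n + 1) (node t) (snode η)
      = ∑ c, wt β t c * lam⁻¹ * stat β lam v n (t c) (η c) := rfl

/-- First moment of a sum over the children. -/
lemma node_first (hq : 2 ≤ q) {lam : ℝ} {v : Fin q → ℝ} {n k : ℕ}
    (t : Fin k → Tree n) (g : (c : Fin k) → Spins q n (t c) → ℝ) (a : Fin k → ℝ)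
    (hg : ∀ c i, ∑ x : Spins q n (t c), elik q lam n (t c) i x * g c x = a c * v i) (i : Fin q) :
    ∑ η : ((c : Fin k) → Spins q n (t c)),
      lik q lam (n + 1) (node t) i (snode η) * ∑ c, g c (η c) = (∑ c, a c) * v i := by
  calc ∑ η : ((c : Fin k) → Spins q n (t c)),
        lik q lam (n + 1) (node t) i (snode η) * ∑ c, g c (η c)
      = ∑ η : ((c : Fin k) → Spins q n (t c)), ∑ c₀,
        (∏ c, elik q lam n (t c) i (η c)) * g c₀ (η c₀) := by
        refine Finset.sum_congr rfl fun η _ => ?_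
        rw [lik_succ, ← Finset.mul_sum]
    _ = ∑ c₀, ∑ x : Spins q n (t c₀), elik q lam n (t c₀) i x * g c₀ x := by
        rw [Finset.sum_comm]
        refine Finset.sum_congr rfl fun c₀ _ => ?_
        exact sum_pi_prod_mul (fun c x => elik q lam n (t c) i x)
          (fun c x => g c x) (fun c => elik_sum hq lam n (t c) i) c₀
    _ = _ := by
        rw [Finset.sum_mul]
        exact Finset.sum_congr rfl fun c _ => hg c i

/-- Second moment of a sum over the children, uniform root spin. -/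
lemma node_second (hq : 2 ≤ q) {lam : ℝ} {v : Fin q → ℝ} {n k : ℕ}
    (t : Fin k → Tree n) (g : (c : Fin k) → Spins q n (t c) → ℝ) (a : Fin k → ℝ)
    (hg : ∀ c i, ∑ x : Spins q n (t c), elik q lam n (t c) i x * g c x = a c * v i) :
    ∑ i : Fin q, (1 / q : ℝ) * ∑ η : ((c : Fin k) → Spins q n (t c)),
      lik q lam (n + 1) (node t) i (snode η) * (∑ c, g c (η c)) ^ 2
      = ∑ c, ∑ j : Fin q, (1 / q : ℝ) * ∑ x : Spins q n (t c), lik q lam n (t c) j x * g c x ^ 2
      + (∑ i, (1 / q : ℝ) * v i ^ 2) *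
        ∑ p ∈ (Finset.univ : Finset (Fin k)).offDiag, a p.1 * a p.2 := by
  have h1 : ∀ i : Fin q, ∑ η : ((c : Fin k) → Spins q n (t c)),
      lik q lam (n + 1) (node t) i (snode η) * (∑ c, g c (η c)) ^ 2
      = ∑ c, ∑ j, potts q lam i j * ∑ x : Spins q n (t c), lik q lam n (t c) j x * g c x ^ 2
        + v i ^ 2 * ∑ p ∈ (Finset.univ : Finset (Fin k)).offDiag, a p.1 * a p.2 := by
    intro i
    calc ∑ η : ((c : Fin k) → Spins q n (t c)),
          lik q lam (n + 1) (node t) i (snode η) * (∑ c, g c (η c)) ^ 2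
        = ∑ η : ((c : Fin k) → Spins q n (t c)), (∑ c₀,
          (∏ c, elik q lam n (t c) i (η c)) * g c₀ (η c₀) ^ 2
          + ∑ p ∈ (Finset.univ : Finset (Fin k)).offDiag,
            (∏ c, elik q lam n (t c) i (η c)) * (g p.1 (η p.1) * g p.2 (η p.2))) := by
          refine Finset.sum_congr rfl fun η _ => ?_
          rw [lik_succ, ← Finset.mul_sum, ← Finset.mul_sum, ← mul_add, ← sq_sum_eq]
      _ = _ := by
          rw [Finset.sum_add_distrib]
          congr 1
          · rw [Finset.sum_comm]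
            refine Finset.sum_congr rfl fun c₀ _ => ?_
            rw [sum_pi_prod_mul (fun c x => elik q lam n (t c) i x)
              (fun c x => g c x ^ 2) (fun c => elik_sum hq lam n (t c) i) c₀]
            simp only [elik, Finset.sum_mul]
            rw [Finset.sum_comm]
            simp_rw [mul_assoc, ← Finset.mul_sum]
          · rw [Finset.sum_comm, Finset.mul_sum]
            refine Finset.sum_congr rfl fun p hp => ?_
            rw [Finset.mem_offDiag] at hp
            rw [sum_pi_prod_mul_mul (fun c x => elik q lam n (t c) i x)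
              (fun c x => g c x) (fun c x => g c x)
              (fun c => elik_sum hq lam n (t c) i) hp.2.2, hg, hg]
            ring
  simp_rw [h1, mul_add]
  rw [Finset.sum_add_distrib]
  congr 1
  · simp_rw [Finset.mul_sum]
    rw [Finset.sum_comm]
    refine Finset.sum_congr rfl fun c _ => ?_
    rw [Finset.sum_comm]
    refine Finset.sum_congr rfl fun j _ => ?_
    rw [Finset.sum_comm]
    refine Finset.sum_congr rfl fun x _ => ?_
    have : ∀ i : Fin q, (1 / q : ℝ) * (potts q lam i j * (lik q lam n (t c) j x *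
        g c x ^ 2)) = ((1 / q : ℝ) * potts q lam i j) * (lik q lam n (t c) j x *
        g c x ^ 2) := fun i => by ring
    simp_rw [this, ← Finset.sum_mul, potts_col_avg hq lam j]
  · simp_rw [Finset.sum_mul]
    refine Finset.sum_congr rfl fun i _ => ?_
    ring

/-- Through an edge, an unbiased statistic stays unbiased up to the factor `lam`. -/
lemma elik_mul {lam : ℝ} {v : Fin q → ℝ} (hv : ∑ i, v i = 0) {n : ℕ} {t : Tree n}
    {g : Spins q n t → ℝ} (hg : ∀ i, ∑ x : Spins q n t, lik q lam n t i x * g x = v i)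
    (i : Fin q) : ∑ x : Spins q n t, elik q lam n t i x * g x = lam * v i := by
  simp only [elik, Finset.sum_mul]
  rw [Finset.sum_comm]
  simp_rw [mul_assoc, ← Finset.mul_sum, hg]
  exact potts_mulVec lam hv i

lemma sum_mf_pos {β : ℝ} (hβ : 0 < β) {n k : ℕ} {t : Fin k → Tree n}
    (h : 0 < mf β (n + 1) (node t)) : 0 < ∑ c, mf β n (t c) := by
  rw [mf_succ] at h
  have h2 := (lt_min_iff.1 h).2
  exact (mul_pos_iff_of_pos_left (by positivity)).1 h2

lemma wt_nonneg {β : ℝ} (hβ : 0 < β) {n k : ℕ} (t : Fin k → Tree n) (c : Fin k) :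
    0 ≤ wt β t c :=
  div_nonneg (mf_nonneg hβ n _) (Finset.sum_nonneg fun _ _ => mf_nonneg hβ n _)

lemma sum_wt {β : ℝ} {n k : ℕ} {t : Fin k → Tree n} (h : 0 < ∑ c, mf β n (t c)) :
    ∑ c, wt β t c = 1 := by
  unfold wt
  rw [← Finset.sum_div, div_self h.ne']

/-- first moment through the edge to the child `c`, with its weight -/
lemma elik_wt {β lam : ℝ} (hβ : 0 < β) (hl : lam ≠ 0) {v : Fin q → ℝ} (hv : ∑ i, v i = 0)
    {n k : ℕ} {t : Fin k → Tree n}
    (ih : ∀ c, 0 < mf β n (t c) → ∀ i, ∑ x : Spins q n (t c), lik q lam n (t c) i x *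
      stat β lam v n (t c) x = v i) (c : Fin k) (i : Fin q) :
    ∑ x : Spins q n (t c), elik q lam n (t c) i x *
      (wt β t c * lam⁻¹ * stat β lam v n (t c) x) = wt β t c * v i := by
  rcases (mf_nonneg hβ n (t c)).eq_or_lt with h | h
  · have : wt β t c = 0 := by unfold wt; rw [← h, zero_div]
    simp [this]
  · have h1 := elik_mul hv (ih c h) i
    have h2 : ∀ x : Spins q n (t c), elik q lam n (t c) i x *
        (wt β t c * lam⁻¹ * stat β lam v n (t c) x)
        = wt β t c * lam⁻¹ * (elik q lam n (t c) i x * stat β lam v n (t c) x) := by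
      intro x; ring
    rw [Finset.sum_congr rfl fun x _ => h2 x, ← Finset.mul_sum, h1]
    field_simp

lemma lik_stat (hq : 2 ≤ q) {β lam : ℝ} (hβ : 0 < β) (hl : lam ≠ 0) {v : Fin q → ℝ}
    (hv : ∑ i, v i = 0) : ∀ (n : ℕ) (t : Tree n), 0 < mf β n t → ∀ i : Fin q,
    ∑ η : Spins q n t, lik q lam n t i η * stat β lam v n t η = v i
  | 0, t, _, i => by
      rw [sum_spins_zero]
      simp only [lik_zero, stat_zero, ite_mul, one_mul, zero_mul, Finset.sum_ite_eq,
        Finset.mem_univ, ↓reduceIte]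
  | n + 1, t, h, i => by
      obtain ⟨k, s, rfl⟩ := exists_node t
      have hS := sum_mf_pos hβ h
      rw [sum_spins_succ]
      simp_rw [stat_succ]
      rw [node_first hq s (fun c x => wt β s c * lam⁻¹ * stat β lam v n (s c) x) (wt β s)
        (fun c i => elik_wt hβ hl hv (fun c hc => lik_stat hq hβ hl hv n (s c) hc) c i) i,
        sum_wt hS, one_mul]

/-- Second moment of the statistic, uniform root spin. -/
noncomputable def sm (β lam : ℝ) (v : Fin q → ℝ) (n : ℕ) (t : Tree n) : ℝ :=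
  ∑ i : Fin q, (1 / q : ℝ) * ∑ η : Spins q n t, lik q lam n t i η * stat β lam v n t η ^ 2

lemma sm_zero {β lam : ℝ} {v : Fin q → ℝ} (t : Tree 0) :
    sm β lam v 0 t = ∑ i, (1 / q : ℝ) * v i ^ 2 := by
  unfold sm
  refine Finset.sum_congr rfl fun i _ => ?_
  rw [sum_spins_zero]
  simp only [lik_zero, stat_zero, ite_mul, one_mul, zero_mul, Finset.sum_ite_eq,
    Finset.mem_univ, ↓reduceIte]

lemma sm_succ (hq : 2 ≤ q) {β lam : ℝ} (hβ : 0 < β) (hl : lam ≠ 0) {v : Fin q → ℝ}
    (hv : ∑ i, v i = 0) {n k : ℕ} (t : Fin k → Tree n) :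
    sm β lam v (n + 1) (node t) = ∑ c, (wt β t c * lam⁻¹) ^ 2 * sm β lam v n (t c)
      + (∑ i, (1 / q : ℝ) * v i ^ 2) *
        ∑ p ∈ (Finset.univ : Finset (Fin k)).offDiag, wt β t p.1 * wt β t p.2 := by
  unfold sm
  have h := node_second hq (lam := lam) (v := v) t
    (fun c x => wt β t c * lam⁻¹ * stat β lam v n (t c) x) (wt β t)
    (fun c i => elik_wt hβ hl hv (fun c hc => lik_stat hq hβ hl hv n (t c) hc) c i)
  have h0 : ∀ i : Fin q, ∑ η : Spins q (n + 1) (node t), lik q lam (n + 1) (node t) i η *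
      stat β lam v (n + 1) (node t) η ^ 2 = ∑ η : ((c : Fin k) → Spins q n (t c)),
      lik q lam (n + 1) (node t) i (snode η) *
        (∑ c, wt β t c * lam⁻¹ * stat β lam v n (t c) (η c)) ^ 2 := fun i => rfl
  simp_rw [h0]
  rw [h]
  congr 1
  refine Finset.sum_congr rfl fun c _ => ?_
  rw [Finset.mul_sum]
  refine Finset.sum_congr rfl fun j _ => ?_
  have e : ∑ x : Spins q n (t c), lik q lam n (t c) j x *
      (wt β t c * lam⁻¹ * stat β lam v n (t c) x) ^ 2
      = (wt β t c * lam⁻¹) ^ 2 * ∑ x : Spins q n (t c), lik q lam n (t c) j x *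
        stat β lam v n (t c) x ^ 2 := by
    rw [Finset.mul_sum]
    refine Finset.sum_congr rfl fun x _ => ?_
    ring
  rw [e]
  ring

lemma sm_nonneg (hq : 2 ≤ q) {β lam : ℝ} (hl : -1 / ((q : ℝ) - 1) ≤ lam) (hl1 : lam ≤ 1)
    (v : Fin q → ℝ) (n : ℕ) (t : Tree n) : 0 ≤ sm β lam v n t :=
  Finset.sum_nonneg fun i _ => mul_nonneg (by positivity)
    (Finset.sum_nonneg fun η _ => mul_nonneg (KS.lik_nonneg hq hl hl1 n t i η) (sq_nonneg _))

/-- the second moment is at most a constant over the strength of the flow -/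
lemma mf_mul_sm (hq : 2 ≤ q) {β lam : ℝ} (hβ : 0 < β) (hl0 : lam ≠ 0)
    (hl : -1 / ((q : ℝ) - 1) ≤ lam) (hl1 : lam ≤ 1) (hb : 1 < β * lam ^ 2)
    {v : Fin q → ℝ} (hv : ∑ i, v i = 0) : ∀ (n : ℕ) (t : Tree n), 0 < mf β n t →
    mf β n t * sm β lam v n t * (1 - 1 / (β * lam ^ 2)) ≤ ∑ i, (1 / q : ℝ) * v i ^ 2
  | 0, t, _ => by
      rw [sm_zero, mf_zero, one_mul]
      have hA : 0 ≤ ∑ i, (1 / q : ℝ) * v i ^ 2 :=
        Finset.sum_nonneg fun i _ => mul_nonneg (by positivity) (sq_nonneg _)
      have : 0 < 1 / (β * lam ^ 2) := by positivity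
      nlinarith
  | n + 1, t, h => by
      obtain ⟨k, s, rfl⟩ := exists_node t
      set A : ℝ := ∑ i, (1 / q : ℝ) * v i ^ 2 with hA'
      have hA : 0 ≤ A := Finset.sum_nonneg fun i _ => mul_nonneg (by positivity) (sq_nonneg _)
      have hS := sum_mf_pos hβ h
      set S : ℝ := ∑ c, mf β n (s c) with hS'
      have hl2 : 0 < lam ^ 2 := by positivity
      set r : ℝ := 1 / (β * lam ^ 2) with hr
      have hr0 : 0 < r := by positivity
      have hr1 : r < 1 := by rw [hr, div_lt_one (by positivity)]; exact hb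
      have h1r : 0 < 1 - r := by linarith
      -- first term
      have e1 : ∀ c, (wt β s c * lam⁻¹) ^ 2 * sm β lam v n (s c) * (1 - r)
          ≤ (A * (lam ^ 2)⁻¹ / S ^ 2) * mf β n (s c) := by
        intro c
        rcases (mf_nonneg hβ n (s c)).eq_or_lt with h0 | h0
        · have : wt β s c = 0 := by unfold wt; rw [← h0, zero_div]
          rw [this, ← h0]; simp
        · have ih := mf_mul_sm hq hβ hl0 hl hl1 hb hv n (s c) h0
          have hw : wt β s c = mf β n (s c) / S := rfl
          rw [hw]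
          have e : (mf β n (s c) / S * lam⁻¹) ^ 2 * sm β lam v n (s c) * (1 - r)
              = ((lam ^ 2)⁻¹ / S ^ 2 * mf β n (s c)) *
                (mf β n (s c) * sm β lam v n (s c) * (1 - r)) := by
            field_simp
          rw [e]
          calc ((lam ^ 2)⁻¹ / S ^ 2 * mf β n (s c)) *
                (mf β n (s c) * sm β lam v n (s c) * (1 - r))
              ≤ ((lam ^ 2)⁻¹ / S ^ 2 * mf β n (s c)) * A :=
                mul_le_mul_of_nonneg_left ih (by positivity)
            _ = _ := by ring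
      have e2 : (∑ c, (wt β s c * lam⁻¹) ^ 2 * sm β lam v n (s c)) * (1 - r)
          ≤ A * (lam ^ 2)⁻¹ / S := by
        rw [Finset.sum_mul]
        refine (Finset.sum_le_sum fun c _ => e1 c).trans (le_of_eq ?_)
        rw [← Finset.mul_sum, ← hS']
        field_simp
      have e3 : ∑ p ∈ (Finset.univ : Finset (Fin k)).offDiag, wt β s p.1 * wt β s p.2 ≤ 1 := by
        have h1 := sq_sum_eq (wt β s)
        rw [sum_wt hS] at h1
        have h2 : 0 ≤ ∑ c, wt β s c ^ 2 := Finset.sum_nonneg fun c _ => sq_nonneg _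
        linarith
      have hm1 : mf β (n + 1) (node s) ≤ 1 := mf_le_one _ _
      have hm2 : mf β (n + 1) (node s) ≤ 1 / β * S := by rw [mf_succ]; exact min_le_right _ _
      rw [sm_succ hq hβ hl0 hv s]
      set M := mf β (n + 1) (node s)
      set T1 := ∑ c, (wt β s c * lam⁻¹) ^ 2 * sm β lam v n (s c)
      set T2 := ∑ p ∈ (Finset.univ : Finset (Fin k)).offDiag, wt β s p.1 * wt β s p.2
      have hM0 : 0 ≤ M := h.le
      have f1 : M * (T1 * (1 - r)) ≤ A * r := by
        calc M * (T1 * (1 - r)) ≤ M * (A * (lam ^ 2)⁻¹ / S) :=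
              mul_le_mul_of_nonneg_left e2 hM0
          _ ≤ (1 / β * S) * (A * (lam ^ 2)⁻¹ / S) :=
              mul_le_mul_of_nonneg_right hm2 (by positivity)
          _ = A * r := by rw [hr]; field_simp
      have f2 : M * (A * T2 * (1 - r)) ≤ A * (1 - r) := by
        have g1 : A * T2 * (1 - r) ≤ A * (1 - r) := by
          have := mul_le_mul_of_nonneg_left e3 hA
          nlinarith
        calc M * (A * T2 * (1 - r)) ≤ M * (A * (1 - r)) := mul_le_mul_of_nonneg_left g1 hM0
          _ ≤ 1 * (A * (1 - r)) := mul_le_mul_of_nonneg_right hm1 (by positivity)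
          _ = _ := one_mul _
      calc M * (T1 + A * T2) * (1 - r) = M * (T1 * (1 - r)) + M * (A * T2 * (1 - r)) := by ring
        _ ≤ A * r + A * (1 - r) := add_le_add f1 f2
        _ = A := by ring

/-- Cauchy-Schwarz: lower bound of the advantage by the flow statistic. -/
lemma correlation_stat (hq : 2 ≤ q) {β lam : ℝ} (hβ : 0 < β) (hl0 : lam ≠ 0)
    (hl : -1 / ((q : ℝ) - 1) ≤ lam) (hl1 : lam ≤ 1) {v : Fin q → ℝ} (hv : ∑ i, v i = 0)
    (hv1 : ∀ i, |v i| ≤ 1) (n : ℕ) (t : Tree n) (ht : 0 < mf β n t) (κ : ℝ) :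
    2 * κ * (∑ i, (1 / q : ℝ) * v i ^ 2)
      ≤ κ ^ 2 * sm β lam v n t + 4 * treeAdv q lam n t := by
  set V : Spins q n t → ℝ := fun η => ∑ i, v i * post q lam n t η i with hV
  have hcorr : ∑ η : Spins q n t, evid q lam n t η * (stat β lam v n t η * V η)
      = ∑ i, (1 / q : ℝ) * v i ^ 2 := by
    have h1 : ∀ η : Spins q n t, evid q lam n t η * (stat β lam v n t η * V η)
        = ∑ i, (1 / q : ℝ) * v i * (lik q lam n t i η * stat β lam v n t η) := by
      intro η
      have : evid q lam n t η * (stat β lam v n t η * V η)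
          = ∑ i, stat β lam v n t η * v i * (evid q lam n t η * post q lam n t η i) := by
        rw [hV]
        simp only [Finset.mul_sum]
        refine Finset.sum_congr rfl fun i _ => ?_
        ring
      rw [this]
      refine Finset.sum_congr rfl fun i _ => ?_
      rw [evid_mul_post hq hl hl1]
      ring
    simp_rw [h1]
    rw [Finset.sum_comm]
    refine Finset.sum_congr rfl fun i _ => ?_
    rw [← Finset.mul_sum, lik_stat hq hβ hl0 hv n t ht]
    ring
  have hsec : ∑ η : Spins q n t, evid q lam n t η * stat β lam v n t η ^ 2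
      = sm β lam v n t := by
    simp only [evid, sm, Finset.sum_mul, Finset.mul_sum]
    rw [Finset.sum_comm]
    refine Finset.sum_congr rfl fun i _ => Finset.sum_congr rfl fun η _ => ?_
    ring
  have hVB : ∀ η : Spins q n t, V η ^ 2
      ≤ 4 * ((1 / 2) * ∑ i : Fin q, |post q lam n t η i - 1 / q|) := by
    intro η
    set B := ∑ i : Fin q, |post q lam n t η i - 1 / q| with hB
    have hB0 : 0 ≤ B := Finset.sum_nonneg fun i _ => abs_nonneg _
    have hB2 : B ≤ 2 := sum_abs_post_le hq hl hl1 n t η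
    have hVeq : V η = ∑ i, v i * (post q lam n t η i - 1 / q) := by
      simp only [hV, mul_sub]
      rw [Finset.sum_sub_distrib, ← Finset.sum_mul, hv]
      ring
    have hVle : |V η| ≤ B := by
      rw [hVeq]
      refine (Finset.abs_sum_le_sum_abs _ _).trans (Finset.sum_le_sum fun i _ => ?_)
      rw [abs_mul]
      exact mul_le_of_le_one_left (abs_nonneg _) (hv1 i)
    have : V η ^ 2 ≤ B ^ 2 := by
      rw [← sq_abs]
      exact pow_le_pow_left₀ (abs_nonneg _) hVle 2
    nlinarith only [hB0, hB2, this]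
  have hkey : ∀ η : Spins q n t, 2 * κ * (evid q lam n t η * (stat β lam v n t η * V η))
      ≤ κ ^ 2 * (evid q lam n t η * stat β lam v n t η ^ 2)
        + 4 * (evid q lam n t η * ((1 / 2) * ∑ i : Fin q, |post q lam n t η i - 1 / q|)) := by
    intro η
    have h0 := KS.evid_nonneg hq hl hl1 n t η
    have h1 := hVB η
    have h2 : 2 * κ * (stat β lam v n t η * V η) ≤ κ ^ 2 * stat β lam v n t η ^ 2 + V η ^ 2 := by
      nlinarith only [sq_nonneg (κ * stat β lam v n t η - V η)]
    have h3 := mul_le_mul_of_nonneg_left (h2.trans (add_le_add_right h1 _)) h0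
    nlinarith only [h3]
  have hsum := Finset.sum_le_sum (fun η (_ : η ∈ (Finset.univ : Finset (Spins q n t))) => hkey η)
  rw [Finset.sum_add_distrib, ← Finset.mul_sum, ← Finset.mul_sum, ← Finset.mul_sum, hcorr,
    hsec] at hsum
  exact hsum

/-- **Flow lower bound.** On every tree cut at level `n` the advantage is at least a constant times
the strength of the flow. -/
theorem mf_le_treeAdv (hq : 2 ≤ q) {β lam : ℝ} (hβ : 0 < β)
    (hl : -1 / ((q : ℝ) - 1) ≤ lam) (hl1 : lam ≤ 1) (hb : 1 < β * lam ^ 2) (n : ℕ) (t : Tree n) :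
    (1 - 1 / (β * lam ^ 2)) / (2 * q) * mf β n t ≤ treeAdv q lam n t := by
  have hq' : (2 : ℝ) ≤ q := by exact_mod_cast hq
  have hl0 : lam ≠ 0 := by
    rintro rfl
    norm_num at hb
  have h1r : 0 < 1 - 1 / (β * lam ^ 2) := by
    have hl2 : 0 < lam ^ 2 := by positivity
    rw [sub_pos, div_lt_one (by positivity)]
    exact hb
  rcases (mf_nonneg hβ n t).eq_or_lt with h0 | h0
  · rw [← h0, mul_zero]
    exact treeAdv_nonneg hq hl hl1 n t
  -- the test vector
  set i0 : Fin q := ⟨0, by omega⟩ with hi0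
  set i1 : Fin q := ⟨1, by omega⟩ with hi1
  have h01 : i0 ≠ i1 := by simp [hi0, hi1]
  set v : Fin q → ℝ := fun i => (if i = i0 then 1 else 0) - (if i = i1 then 1 else 0) with hv'
  have hv : ∑ i, v i = 0 := by simp [hv']
  have hv1 : ∀ i, |v i| ≤ 1 := by
    intro i
    simp only [hv']
    split_ifs <;> norm_num
  have hA : ∑ i, (1 / q : ℝ) * v i ^ 2 = 2 / q := by
    have : ∀ i, (1 / q : ℝ) * v i ^ 2
        = 1 / q * (if i = i0 then 1 else 0) + 1 / q * (if i = i1 then 1 else 0) := by
      intro i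
      simp only [hv']
      by_cases ha : i = i0
      · subst ha
        simp [h01]
      · by_cases hb' : i = i1
        · subst hb'
          simp [Ne.symm h01]
        · simp [ha, hb']
    simp_rw [this]
    rw [Finset.sum_add_distrib]
    simp only [mul_ite, mul_one, mul_zero, Finset.sum_ite_eq', Finset.mem_univ, if_true]
    ring
  have hsm := mf_mul_sm hq hβ hl0 hl hl1 hb hv n t h0
  rw [hA] at hsm
  have hcor := correlation_stat hq hβ hl0 hl hl1 hv hv1 n t h0
  rw [hA] at hcor
  -- choose κ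
  set c : ℝ := 1 - 1 / (β * lam ^ 2) with hc
  set M := mf β n t
  have h1 := hcor (M * c)
  have h2 : (M * c) ^ 2 * sm β lam v n t ≤ M * c * (2 / q) := by
    have : (M * c) ^ 2 * sm β lam v n t = (M * c) * (M * sm β lam v n t * c) := by ring
    rw [this]
    exact mul_le_mul_of_nonneg_left hsm (by positivity)
  have h3 : c / (2 * q) * M = (M * c * (2 / q)) / 4 := by
    have : (q : ℝ) ≠ 0 := by positivity
    field_simp
    ring
  rw [h3]
  linarith

end Vale.Agent.P154.UT
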