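import Mathlib
import Vale.Agent.P154.H928.Flow

/-! Cutsets, rays and the branching number: arbitrary locally finite trees. -/

namespace Vale.Agent.P154.UT

open scoped ENNReal
open Filter Topology Vale.Agent.P154.KS

variable {q : ℕ}

/-- the subtree of the child `c` of the root -/
def sub (κ : List ℕ → ℕ) (c : ℕ) : List ℕ → ℕ := fun l => κ (c :: l)

lemma cut_succ (n : ℕ) (κ : List ℕ → ℕ) :
    cut (n + 1) κ = node (fun c : Fin (κ []) => cut n (sub κ c)) := rfl

lemma isVertex_cons {κ : List ℕ → ℕ} {c : ℕ} {l : List ℕ} :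
    IsVertex κ (c :: l) ↔ c < κ [] ∧ IsVertex (sub κ c) l := Iff.rfl

lemma isVertex_take : ∀ {κ : List ℕ → ℕ} {x : List ℕ} (m : ℕ), IsVertex κ x →
    IsVertex κ (x.take m)
  | _, [], m, _ => by simp [IsVertex]
  | _, _ :: _, 0, _ => by simp [IsVertex]
  | κ, c :: l, m + 1, h => by
      rw [List.take_succ_cons]
      exact ⟨h.1, isVertex_take m h.2⟩

/-- tails of the elements of `Γ` which start with `c` -/
noncomputable def subF (Γ : Finset (List ℕ)) (c : ℕ) : Finset (List ℕ) :=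
  Γ.preimage (fun l => c :: l) (fun _ _ _ _ h => (List.cons.inj h).2)

lemma mem_subF {Γ : Finset (List ℕ)} {c : ℕ} {l : List ℕ} : l ∈ subF Γ c ↔ c :: l ∈ Γ :=
  Finset.mem_preimage

/-- every vertex at level `n` has an ancestor (or itself) in `Γ` -/
def Cov (κ : List ℕ → ℕ) (Γ : Finset (List ℕ)) (n : ℕ) : Prop :=
  ∀ x, IsVertex κ x → x.length = n → ∃ p ∈ Γ, p <+: x

lemma cov_sub {κ : List ℕ → ℕ} {Γ : Finset (List ℕ)} {n : ℕ} (h : Cov κ Γ (n + 1))
    (h0 : [] ∉ Γ) {c : ℕ} (hc : c < κ []) : Cov (sub κ c) (subF Γ c) n := by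
  intro x hx hn
  obtain ⟨p, hp, hpx⟩ := h (c :: x) ⟨hc, hx⟩ (by simp [hn])
  cases p with
  | nil => exact absurd hp h0
  | cons a p' =>
    rw [List.cons_prefix_cons] at hpx
    obtain ⟨rfl, hp'⟩ := hpx
    exact ⟨p', mem_subF.2 hp, hp'⟩

lemma cov_mono {κ : List ℕ → ℕ} {Γ : Finset (List ℕ)} {N n : ℕ} (h : Cov κ Γ N) (hn : N ≤ n) :
    Cov κ Γ n := by
  intro x hx hxn
  obtain ⟨p, hp, hpx⟩ := h (x.take N) (isVertex_take N hx) (by simp [hxn, hn])
  exact ⟨p, hp, hpx.trans (List.take_prefix N x)⟩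

lemma cov_of_sub {κ : List ℕ → ℕ} {Γ : Finset (List ℕ)} {n : ℕ}
    (h : ∀ c, c < κ [] → Cov (sub κ c) (subF Γ c) n) : Cov κ Γ (n + 1) := by
  intro x hx hn
  cases x with
  | nil => simp at hn
  | cons c l =>
    obtain ⟨p, hp, hpl⟩ := h c hx.1 l hx.2 (by simpa using hn)
    exact ⟨c :: p, mem_subF.1 hp, List.cons_prefix_cons.2 ⟨rfl, hpl⟩⟩

lemma bad_step {κ : List ℕ → ℕ} {Γ : Finset (List ℕ)} (h : ∀ N, ¬ Cov κ Γ N) :
    [] ∉ Γ ∧ ∃ c, c < κ [] ∧ ∀ N, ¬ Cov (sub κ c) (subF Γ c) N := by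
  constructor
  · intro h0
    exact h 0 fun x _ _ => ⟨[], h0, List.nil_prefix⟩
  · by_contra hcon
    push Not at hcon
    choose! N hN using hcon
    refine h ((Finset.range (κ [])).sup N + 1) (cov_of_sub fun c hc => ?_)
    exact cov_mono (hN c hc) (Finset.le_sup (f := N) (Finset.mem_range.2 hc))

/-- states for the construction of a ray -/
def St : Type := {s : (List ℕ → ℕ) × Finset (List ℕ) // ∀ N, ¬ Cov s.1 s.2 N}

noncomputable def nxt (s : St) : ℕ := (bad_step s.2).2.choose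

lemma nxt_lt (s : St) : nxt s < s.1.1 [] := (bad_step s.2).2.choose_spec.1

noncomputable def stp (s : St) : St :=
  ⟨(sub s.1.1 (nxt s), subF s.1.2 (nxt s)), (bad_step s.2).2.choose_spec.2⟩

noncomputable def mkRay (s : St) (n : ℕ) : ℕ := nxt (stp^[n] s)

lemma map_mkRay (s : St) (n : ℕ) :
    (List.range (n + 1)).map (mkRay s) = nxt s :: (List.range n).map (mkRay (stp s)) := by
  rw [List.range_succ_eq_map, List.map_cons, List.map_map]
  rfl

lemma mkRay_spec : ∀ (n : ℕ) (s : St), IsVertex s.1.1 ((List.range n).map (mkRay s)) ∧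
    (List.range n).map (mkRay s) ∉ s.1.2
  | 0, s => ⟨by simp [IsVertex], by simpa using (bad_step s.2).1⟩
  | n + 1, s => by
      rw [map_mkRay]
      obtain ⟨h1, h2⟩ := mkRay_spec n (stp s)
      exact ⟨⟨nxt_lt s, h1⟩, fun h => h2 (mem_subF.2 h)⟩

/-- König's lemma: a cutset covers all sufficiently high levels. -/
lemma exists_cov {κ : List ℕ → ℕ} {Γ : Finset (List ℕ)} (h : IsCutset κ Γ) :
    ∃ N, ∀ n, N ≤ n → Cov κ Γ n := by
  by_contra hcon
  push Not at hcon
  have hbad : ∀ N, ¬ Cov κ Γ N := by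
    intro N hN
    obtain ⟨n, hn, h2⟩ := hcon N
    exact h2 (cov_mono hN hn)
  let s : St := ⟨(κ, Γ), hbad⟩
  obtain ⟨n, hn⟩ := h.2 (mkRay s) fun n => (mkRay_spec n s).1
  exact (mkRay_spec n s).2 hn

/-- A set of vertices which covers one level is a cutset. -/
lemma isCutset_of_cov {κ : List ℕ → ℕ} {Γ : Finset (List ℕ)} {n : ℕ}
    (h1 : ∀ x ∈ Γ, IsVertex κ x) (h2 : Cov κ Γ n) : IsCutset κ Γ := by
  refine ⟨h1, fun ξ hξ => ?_⟩
  obtain ⟨p, hp, hpx⟩ := h2 _ (hξ n) (by simp)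
  refine ⟨p.length, ?_⟩
  have hlen : p.length ≤ n := by simpa using hpx.length_le
  have h3 : p = ((List.range n).map ξ).take p.length := List.prefix_iff_eq_take.1 hpx
  have h4 : (List.range p.length).map ξ = p := by
    conv_rhs => rw [h3]
    rw [← List.map_take, List.take_range, min_eq_left hlen]
  rw [h4]
  exact hp

/-- the map `(c, l) ↦ c :: l` -/
def consMap (k : ℕ) : (Σ _ : Fin k, List ℕ) → List ℕ := fun p => (p.1 : ℕ) :: p.2

lemma consMap_inj (k : ℕ) : Function.Injective (consMap k) := by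
  rintro ⟨c, l⟩ ⟨c', l'⟩ h
  unfold consMap at h
  simp only [List.cons.injEq] at h
  obtain ⟨h1, rfl⟩ := h
  have : c = c' := Fin.ext h1
  subst this
  rfl

lemma sum_subF_le (Γ : Finset (List ℕ)) (k : ℕ) {f : List ℕ → ℝ} (hf : ∀ x, 0 ≤ f x) :
    ∑ c : Fin k, ∑ l ∈ subF Γ c, f ((c : ℕ) :: l) ≤ ∑ x ∈ Γ, f x := by
  have h1 : ∑ c : Fin k, ∑ l ∈ subF Γ c, f ((c : ℕ) :: l)
      = ∑ p ∈ (Finset.univ : Finset (Fin k)).sigma (fun c => subF Γ c), f (consMap k p) :=
    Finset.sum_sigma' _ _ _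
  rw [h1, ← Finset.sum_image (s := (Finset.univ : Finset (Fin k)).sigma (fun c => subF Γ c))
    (g := consMap k) (f := f) (fun _ _ _ _ h => consMap_inj k h)]
  refine Finset.sum_le_sum_of_subset_of_nonneg ?_ fun x _ _ => hf x
  intro x hx
  rw [Finset.mem_image] at hx
  obtain ⟨⟨c, l⟩, hp, rfl⟩ := hx
  rw [Finset.mem_sigma] at hp
  exact mem_subF.1 hp.2

/-! ### The minimal cut -/

lemma mincut {β : ℝ} (hβ : 0 < β) : ∀ (n : ℕ) (κ : List ℕ → ℕ), ∃ Γ : Finset (List ℕ),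
    (∀ x ∈ Γ, IsVertex κ x) ∧ Cov κ Γ n ∧ ∑ x ∈ Γ, (1 / β) ^ x.length = mf β n (cut n κ)
  | 0, κ => ⟨{[]}, by simp [IsVertex], fun x _ _ => ⟨[], by simp, List.nil_prefix⟩,
      by simp [mf_zero]⟩
  | n + 1, κ => by
      rw [cut_succ, mf_succ]
      rcases le_total 1 (1 / β * ∑ c : Fin (κ []), mf β n (cut n (sub κ c))) with h | h
      · rw [min_eq_left h]
        exact ⟨{[]}, by simp [IsVertex], fun x _ _ => ⟨[], by simp, List.nil_prefix⟩, by simp⟩
      · rw [min_eq_right h]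
        have ih := fun c : Fin (κ []) => mincut hβ n (sub κ c)
        choose Γ h1 h2 h3 using ih
        refine ⟨((Finset.univ : Finset (Fin (κ []))).sigma Γ).image (consMap (κ [])), ?_, ?_, ?_⟩
        · intro x hx
          rw [Finset.mem_image] at hx
          obtain ⟨⟨c, l⟩, hp, rfl⟩ := hx
          rw [Finset.mem_sigma] at hp
          exact ⟨c.2, h1 c l hp.2⟩
        · intro x hx hn
          cases x with
          | nil => simp at hn
          | cons c l =>
            obtain ⟨p, hp, hpl⟩ := h2 ⟨c, hx.1⟩ l hx.2 (by simpa using hn)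
            refine ⟨c :: p, ?_, List.cons_prefix_cons.2 ⟨rfl, hpl⟩⟩
            rw [Finset.mem_image]
            exact ⟨⟨⟨c, hx.1⟩, p⟩, Finset.mem_sigma.2 ⟨Finset.mem_univ _, hp⟩, rfl⟩
        · rw [Finset.sum_image (fun _ _ _ _ h => consMap_inj _ h), Finset.sum_sigma,
            Finset.mul_sum]
          refine Finset.sum_congr rfl fun c _ => ?_
          rw [← h3 c, Finset.mul_sum]
          refine Finset.sum_congr rfl fun l _ => ?_
          simp only [consMap, List.length_cons, pow_succ]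
          ring

/-! ### The sequence for a fixed tree -/

lemma trunc_cut : ∀ (n : ℕ) (κ : List ℕ → ℕ), anti_trunc n (cut (n + 1) κ) = cut n κ
  | 0, _ => rfl
  | n + 1, κ => by
      have h : anti_trunc (n + 1) (cut (n + 2) κ)
          = (⟨κ [], fun c => anti_trunc n (cut (n + 1) (sub κ c))⟩ : Tree (n + 1)) := rfl
      rw [h]
      have h2 : (fun c : Fin (κ []) => anti_trunc n (cut (n + 1) (sub κ c)))
          = fun c : Fin (κ []) => cut n (sub κ c) := by
        funext c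
        exact trunc_cut n (sub κ c)
      rw [h2]
      rfl

lemma treeAdvantage_eq (κ : List ℕ → ℕ) (q : ℕ) (lam : ℝ) (n : ℕ) :
    treeAdvantage κ q lam n = treeAdv q lam n (cut n κ) := rfl

lemma treeAdvantage_antitone (hq : 2 ≤ q) {lam : ℝ} (hl : -1 / ((q : ℝ) - 1) ≤ lam)
    (hl1 : lam ≤ 1) (κ : List ℕ → ℕ) : Antitone (treeAdvantage κ q lam) := by
  refine antitone_nat_of_succ_le fun n => ?_
  have hP := KS.potts_nonneg hq hl hl1
  have hs := KS.potts_row_sum hq lam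
  have e1 : treeAdvantage κ q lam (n + 1) = anti_G q lam (n + 1) (cut (n + 1) κ) :=
    anti_G_eq (by omega) hP (n + 1) (cut (n + 1) κ)
  have e2 : treeAdvantage κ q lam n = anti_G q lam n (cut n κ) :=
    anti_G_eq (by omega) hP n (cut n κ)
  rw [e1, e2]
  have h := anti_G_le hP hs n (cut (n + 1) κ)
  rw [trunc_cut] at h
  exact h

lemma treeReconstruction_of_le (hq : 2 ≤ q) {lam : ℝ} (hl : -1 / ((q : ℝ) - 1) ≤ lam)
    (hl1 : lam ≤ 1) {κ : List ℕ → ℕ} {c : ℝ} (hc : 0 < c)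
    (h : ∀ n, c ≤ treeAdvantage κ q lam n) : TreeReconstruction κ q lam := by
  have hanti := treeAdvantage_antitone hq hl hl1 κ
  have hbdd : BddBelow (Set.range (treeAdvantage κ q lam)) := by
    refine ⟨c, ?_⟩
    rintro _ ⟨n, rfl⟩
    exact h n
  exact ⟨⨅ n, treeAdvantage κ q lam n, lt_of_lt_of_le hc (le_ciInf h),
    tendsto_atTop_ciInf hanti hbdd⟩

/-- Reconstruction and nonreconstruction on a fixed tree are complementary. -/
theorem treeReconstruction_iff (hq : 2 ≤ q) {lam : ℝ} (hl : -1 / ((q : ℝ) - 1) ≤ lam)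
    (hl1 : lam ≤ 1) (κ : List ℕ → ℕ) :
    TreeReconstruction κ q lam ↔ ¬ TreeNonreconstruction κ q lam := by
  constructor
  · rintro ⟨l, hl, hlim⟩ hnon
    exact hl.ne' (tendsto_nhds_unique hlim hnon)
  · intro hnon
    have hanti := treeAdvantage_antitone hq hl hl1 κ
    have h0 : ∀ n, 0 ≤ treeAdvantage κ q lam n := fun n =>
      treeAdv_nonneg hq hl hl1 n (cut n κ)
    have hbdd : BddBelow (Set.range (treeAdvantage κ q lam)) := by
      refine ⟨0, ?_⟩
      rintro _ ⟨n, rfl⟩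
      exact h0 n
    refine ⟨⨅ n, treeAdvantage κ q lam n, lt_of_le_of_ne (le_ciInf h0) ?_,
      tendsto_atTop_ciInf hanti hbdd⟩
    intro h
    apply hnon
    have := tendsto_atTop_ciInf hanti hbdd
    rw [← h] at this
    exact this

/-- **Reconstruction above the branching number.** -/
theorem tree_reconstruction (hq : 2 ≤ q) {lam : ℝ} (hl : -1 / ((q : ℝ) - 1) ≤ lam)
    (hl1 : lam ≤ 1) {κ : List ℕ → ℕ} (hm : 1 < br κ * ENNReal.ofReal (lam ^ 2)) :
    TreeReconstruction κ q lam := by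
  have hq' : (2 : ℝ) ≤ q := by exact_mod_cast hq
  have hl0 : lam ≠ 0 := by
    rintro rfl
    simp at hm
  have hl2 : 0 < lam ^ 2 := by positivity
  have hm2 : ENNReal.ofReal (1 / lam ^ 2) < br κ := by
    rw [ENNReal.ofReal_div_of_pos hl2, ENNReal.ofReal_one]
    rw [ENNReal.div_lt_iff (Or.inl (ENNReal.ofReal_pos.2 hl2).ne') (Or.inl ENNReal.ofReal_ne_top)]
    exact hm
  unfold br at hm2
  rw [lt_sSup_iff] at hm2
  obtain ⟨b, ⟨β, hβ0, rfl, ε, hε, hcut⟩, hb⟩ := hm2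
  have hβ1 : 1 / lam ^ 2 < β := (ENNReal.ofReal_lt_ofReal_iff_of_nonneg (by positivity)).1 hb
  have hb : 1 < β * lam ^ 2 := by
    rw [div_lt_iff₀ hl2] at hβ1
    exact hβ1
  set c : ℝ := (1 - 1 / (β * lam ^ 2)) / (2 * q) with hc
  have hc0 : 0 < c := by
    have : 0 < 1 - 1 / (β * lam ^ 2) := by
      rw [sub_pos, div_lt_one (by positivity)]
      exact hb
    positivity
  refine treeReconstruction_of_le hq hl hl1 (c := c * ε) (by positivity) fun n => ?_
  obtain ⟨Γ, h1, h2, h3⟩ := mincut hβ0 n κ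
  have h4 : ε ≤ mf β n (cut n κ) := by
    rw [← h3]
    exact hcut Γ (isCutset_of_cov h1 h2)
  rw [treeAdvantage_eq]
  refine le_trans ?_ (mf_le_treeAdv hq hβ0 hl hl1 hb n (cut n κ))
  exact mul_le_mul_of_nonneg_left h4 hc0.le

/-! ### Nonreconstruction from small cutsets -/

variable {FX K G : (Fin q → ℝ) → ℝ} {γX γA δ : ℝ}

lemma tr_scale {δ lam x : ℝ} (hδ : 0 ≤ δ) (h0 : 0 ≤ lam) (h1 : lam ≤ 1) (hx : 0 ≤ x) :
    tr δ (lam ^ 2 * x) ≤ lam ^ 2 * tr δ x := by
  unfold tr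
  have h2 : lam ^ 6 ≤ lam ^ 2 := pow_le_pow_of_le_one h0 h1 (by norm_num)
  have h3 : (lam ^ 2 * x) ^ 3 = lam ^ 6 * x ^ 3 := by ring
  rw [h3]
  have h4 : 0 ≤ δ / 3 * x ^ 3 := by positivity
  nlinarith

lemma le_tr {δ x : ℝ} (hδ : 0 ≤ δ) (hx : 0 ≤ x) : x ≤ tr δ x := by
  unfold tr
  have : 0 ≤ δ / 3 * x ^ 3 := by positivity
  linarith

lemma upper (hC : IsCert q FX K G γX γA δ) (hq : 2 ≤ q) {lam : ℝ} (h0 : 0 ≤ lam)
    (h1 : lam < 1) : ∀ (n : ℕ) (κ : List ℕ → ℕ) (Γ : Finset (List ℕ)), Cov κ Γ n →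
    tr δ (tval q lam n (cut n κ)) ≤ tr δ 1 * ∑ x ∈ Γ, (lam ^ 2) ^ x.length := by
  intro n
  have hδ := hC.δ_pos
  have htr1 : 0 ≤ tr δ 1 := by unfold tr; positivity
  have hroot : ∀ (n : ℕ) (κ : List ℕ → ℕ) (Γ : Finset (List ℕ)), [] ∈ Γ →
      tr δ (tval q lam n (cut n κ)) ≤ tr δ 1 * ∑ x ∈ Γ, (lam ^ 2) ^ x.length := by
    intro n κ Γ hΓ
    have h2 : tr δ (tval q lam n (cut n κ)) ≤ tr δ 1 :=
      tr_mono hδ.le (tval_nonneg hC hq h0 h1 n _) (tval_le_one hC hq h0 h1 n _)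
    have h3 : (1 : ℝ) ≤ ∑ x ∈ Γ, (lam ^ 2) ^ x.length := by
      have := Finset.single_le_sum (f := fun x : List ℕ => (lam ^ 2) ^ x.length)
        (fun x _ => by positivity) hΓ
      simpa using this
    calc tr δ (tval q lam n (cut n κ)) ≤ tr δ 1 * 1 := by rw [mul_one]; exact h2
      _ ≤ _ := mul_le_mul_of_nonneg_left h3 htr1
  induction n with
  | zero =>
    intro κ Γ hcov
    obtain ⟨p, hp, hpx⟩ := hcov [] (by simp [IsVertex]) rfl
    rw [List.prefix_nil] at hpx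
    subst hpx
    exact hroot 0 κ Γ hp
  | succ n ih =>
    intro κ Γ hcov
    by_cases hΓ : [] ∈ Γ
    · exact hroot _ κ Γ hΓ
    · rw [cut_succ]
      have h2 := tval_succ hC hq h0 h1 n (κ []) (fun c : Fin (κ []) => cut n (sub κ c))
      refine h2.trans ?_
      calc ∑ c : Fin (κ []), tr δ (lam ^ 2 * tval q lam n (cut n (sub κ c)))
          ≤ ∑ c : Fin (κ []), lam ^ 2 * (tr δ 1 * ∑ x ∈ subF Γ c, (lam ^ 2) ^ x.length) := by
            refine Finset.sum_le_sum fun c _ => ?_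
            refine (tr_scale hδ.le h0 h1.le (tval_nonneg hC hq h0 h1 n _)).trans ?_
            exact mul_le_mul_of_nonneg_left (ih (sub κ c) (subF Γ c) (cov_sub hcov hΓ c.2))
              (by positivity)
        _ = tr δ 1 * ∑ c : Fin (κ []), ∑ x ∈ subF Γ c, (lam ^ 2) ^ ((c : ℕ) :: x).length := by
            rw [Finset.mul_sum]
            refine Finset.sum_congr rfl fun c _ => ?_
            rw [Finset.mul_sum, Finset.mul_sum, Finset.mul_sum]
            refine Finset.sum_congr rfl fun x _ => ?_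
            rw [List.length_cons, pow_succ]
            ring
        _ ≤ _ := mul_le_mul_of_nonneg_left
            (sum_subF_le Γ (κ []) (f := fun x => (lam ^ 2) ^ x.length)
              (fun x => by positivity)) htr1

lemma treeNonreconstruction_of_tval (_hC : IsCert q FX K G γX γA δ) (hq : 2 ≤ q) {lam : ℝ}
    (h0 : 0 ≤ lam) (h1 : lam < 1) {κ : List ℕ → ℕ}
    (h : Tendsto (fun n => tval q lam n (cut n κ)) atTop (𝓝 0)) :
    TreeNonreconstruction κ q lam := by
  have hq' : (2 : ℝ) ≤ q := by exact_mod_cast hq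
  have hl : -1 / ((q : ℝ) - 1) ≤ lam := (neg_inv_le_zero hq).trans h0
  have hp := KS.potts_nonneg hq hl h1.le
  unfold TreeNonreconstruction
  rw [Metric.tendsto_atTop]
  intro e he
  rw [Metric.tendsto_atTop] at h
  set ε : ℝ := e / q with hε
  have hεpos : 0 < ε := by positivity
  obtain ⟨N, hN⟩ := h (4 * ε * e) (by positivity)
  refine ⟨N, fun n hn => ?_⟩
  have h2 := hN n hn
  rw [Real.dist_eq, sub_zero] at h2
  have h3 := (abs_lt.1 h2).2
  have h4 : treeAdvantage κ q lam n ≤ (q * ε / 2) + (1 / (8 * ε)) * tval q lam n (cut n κ) :=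
    tadv_le hq hp n (cut n κ) hεpos
  have h5 : 0 ≤ treeAdvantage κ q lam n := treeAdv_nonneg hq hl h1.le n (cut n κ)
  rw [Real.dist_eq, sub_zero, abs_of_nonneg h5]
  have h6 : (q : ℝ) * ε / 2 = e / 2 := by rw [hε]; field_simp
  have h7 : (1 / (8 * ε)) * tval q lam n (cut n κ) < e / 2 := by
    calc (1 / (8 * ε)) * tval q lam n (cut n κ) < (1 / (8 * ε)) * (4 * ε * e) :=
          mul_lt_mul_of_pos_left h3 (by positivity)
      _ = e / 2 := by field_simp; norm_num
  rw [h6] at h4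
  linarith

/-- **Nonreconstruction if the cutset sums `∑ lam^(2|x|)` have infimum zero.** -/
theorem tree_nonreconstruction_cut (hC : IsCert q FX K G γX γA δ) (hq : 2 ≤ q) {lam : ℝ}
    (h0 : 0 ≤ lam) (h1 : lam < 1) {κ : List ℕ → ℕ}
    (h : ∀ ε : ℝ, 0 < ε → ∃ Γ : Finset (List ℕ), IsCutset κ Γ ∧
      ∑ x ∈ Γ, (lam ^ 2) ^ x.length < ε) : TreeNonreconstruction κ q lam := by
  have hδ := hC.δ_pos
  have htr1 : 0 < tr δ 1 := by unfold tr; positivity
  refine treeNonreconstruction_of_tval hC hq h0 h1 ?_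
  rw [Metric.tendsto_atTop]
  intro e he
  obtain ⟨Γ, hΓ, hsum⟩ := h (e / tr δ 1) (by positivity)
  obtain ⟨N, hN⟩ := exists_cov hΓ
  refine ⟨N, fun n hn => ?_⟩
  have h2 := upper hC hq h0 h1 n κ Γ (hN n hn)
  have h3 := tval_nonneg hC hq h0 h1 n (cut n κ)
  have h4 := le_tr hδ.le h3
  rw [Real.dist_eq, sub_zero, abs_of_nonneg h3]
  have h5 : tr δ 1 * ∑ x ∈ Γ, (lam ^ 2) ^ x.length < e := by
    rw [lt_div_iff₀ htr1] at hsum
    linarith
  linarith

/-- **Nonreconstruction below the branching number.** -/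
theorem tree_nonreconstruction_br (hC : IsCert q FX K G γX γA δ) (hq : 2 ≤ q) {lam : ℝ}
    (h0 : 0 ≤ lam) (h1 : lam < 1) {κ : List ℕ → ℕ}
    (h : br κ * ENNReal.ofReal (lam ^ 2) < 1) : TreeNonreconstruction κ q lam := by
  refine tree_nonreconstruction_cut hC hq h0 h1 fun ε hε => ?_
  rcases h0.eq_or_lt with hz | hpos
  · subst hz
    refine ⟨(Finset.range (κ [])).image (fun c => [c]), ⟨?_, ?_⟩, ?_⟩
    · intro x hx
      rw [Finset.mem_image] at hx
      obtain ⟨c, hc, rfl⟩ := hx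
      exact ⟨Finset.mem_range.1 hc, by simp [IsVertex]⟩
    · intro ξ hξ
      refine ⟨1, ?_⟩
      rw [Finset.mem_image]
      refine ⟨ξ 0, Finset.mem_range.2 ?_, by simp⟩
      have := hξ 1
      simp only [List.range_one, List.map_cons, List.map_nil] at this
      exact this.1
    · have : ∑ x ∈ (Finset.range (κ [])).image (fun c => [c]), ((0 : ℝ) ^ 2) ^ x.length = 0 := by
        refine Finset.sum_eq_zero fun x hx => ?_
        rw [Finset.mem_image] at hx
        obtain ⟨c, _, rfl⟩ := hx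
        simp
      rw [this]
      exact hε
  · have hl2 : 0 < lam ^ 2 := by positivity
    have hlt : br κ < ENNReal.ofReal (1 / lam ^ 2) := by
      rw [ENNReal.ofReal_div_of_pos hl2, ENNReal.ofReal_one]
      rw [ENNReal.lt_div_iff_mul_lt (Or.inl (ENNReal.ofReal_pos.2 hl2).ne')
        (Or.inl ENNReal.ofReal_ne_top)]
      exact h
    by_contra hcon
    push Not at hcon
    refine absurd (le_sSup (a := ENNReal.ofReal (1 / lam ^ 2)) ?_) (not_le.2 hlt)
    refine ⟨1 / lam ^ 2, by positivity, rfl, ε, hε, fun Γ hΓ => ?_⟩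
    have h2 := hcon Γ hΓ
    simpa using h2

end Vale.Agent.P154.UT
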