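import Mathlib
import Vale.Agent.P154.H928.Cut

/-! A criterion for nonreconstruction which contains the critical case. -/

namespace Vale.Agent.P154.UT

open scoped ENNReal
open Filter Topology Vale.Agent.P154.KS

variable {q : ℕ} {FX K G : (Fin q → ℝ) → ℝ} {γX γA δ : ℝ}

/-- sum of `F` over the subtrees of the vertices at level `j` -/
noncomputable def lev : (j : ℕ) → (List ℕ → ℕ) → ((List ℕ → ℕ) → ℝ) → ℝ
  | 0, κ, F => F κ
  | j + 1, κ, F => ∑ c : Fin (κ []), lev j (sub κ c) F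

lemma lev_succ' : ∀ (j : ℕ) (κ : List ℕ → ℕ) (F : (List ℕ → ℕ) → ℝ),
    lev (j + 1) κ F = lev j κ (fun κ' => ∑ c : Fin (κ' []), F (sub κ' c))
  | 0, _, _ => rfl
  | j + 1, κ, F => by
      show ∑ c : Fin (κ []), lev (j + 1) (sub κ c) F = ∑ c : Fin (κ []), lev j (sub κ c) _
      exact Finset.sum_congr rfl fun c _ => lev_succ' j (sub κ c) F

lemma lev_mono : ∀ (j : ℕ) (κ : List ℕ → ℕ) {F G : (List ℕ → ℕ) → ℝ}, (∀ κ', F κ' ≤ G κ') →
    lev j κ F ≤ lev j κ G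
  | 0, κ, _, _, h => h κ
  | j + 1, κ, _, _, h => Finset.sum_le_sum fun c _ => lev_mono j (sub κ c) h

lemma lev_lin : ∀ (j : ℕ) (κ : List ℕ → ℕ) (F G : (List ℕ → ℕ) → ℝ) (a b : ℝ),
    lev j κ (fun κ' => a * F κ' + b * G κ') = a * lev j κ F + b * lev j κ G
  | 0, _, _, _, _, _ => rfl
  | j + 1, κ, F, G, a, b => by
      show ∑ c : Fin (κ []), lev j (sub κ c) (fun κ' => a * F κ' + b * G κ') = _
      simp_rw [lev_lin j]
      rw [Finset.sum_add_distrib, ← Finset.mul_sum, ← Finset.mul_sum]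
      rfl

lemma lev_one : ∀ (j : ℕ) (κ : List ℕ → ℕ), lev j κ (fun _ => 1) = levelSize j κ
  | 0, _ => by simp [lev, levelSize]
  | j + 1, κ => by
      show ∑ c : Fin (κ []), lev j (sub κ c) (fun _ => 1)
        = ((∑ c : Fin (κ []), levelSize j (sub κ c) : ℕ) : ℝ)
      rw [Nat.cast_sum]
      exact Finset.sum_congr rfl fun c _ => lev_one j (sub κ c)

lemma lev_nonneg (j : ℕ) (κ : List ℕ → ℕ) {F : (List ℕ → ℕ) → ℝ} (h : ∀ κ', 0 ≤ F κ') :
    0 ≤ lev j κ F := by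
  have h1 := lev_mono j κ (F := fun _ => 0) h
  have h2 := lev_lin j κ (fun _ => 0) (fun _ => 0) 0 0
  simp only [mul_zero, add_zero, zero_mul] at h2
  rw [h2] at h1
  exact h1

/-- power mean inequality -/
lemma lev_cube (j : ℕ) (κ : List ℕ → ℕ) {F : (List ℕ → ℕ) → ℝ} (h : ∀ κ', 0 ≤ F κ')
    (hz : 0 < (levelSize j κ : ℝ)) :
    lev j κ F ^ 3 / (levelSize j κ : ℝ) ^ 2 ≤ lev j κ (fun κ' => F κ' ^ 3) := by
  set z : ℝ := (levelSize j κ : ℝ) with hz'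
  set s := lev j κ F with hs
  set a := s / z with ha
  have hs0 : 0 ≤ s := lev_nonneg j κ h
  have ha0 : 0 ≤ a := by positivity
  have h1 : lev j κ (fun κ' => (3 * a ^ 2) * F κ' + (-(2 * a ^ 3)) * 1)
      ≤ lev j κ (fun κ' => F κ' ^ 3) := by
    apply lev_mono
    intro κ'
    have h2 := h κ'
    have h3 : 0 ≤ (F κ' - a) ^ 2 * (F κ' + 2 * a) := by positivity
    nlinarith [h3]
  rw [lev_lin j κ F (fun _ => 1), lev_one, ← hz', ← hs] at h1
  refine le_trans (le_of_eq ?_) h1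
  rw [ha]
  field_simp
  ring

lemma tr_le_mul {δ x : ℝ} (hδ : 0 ≤ δ) (hx : 0 ≤ x) (hx1 : x ≤ 1) :
    tr δ x ≤ (1 + δ / 3) * x := by
  unfold tr
  have h1 : x ^ 3 ≤ x := by nlinarith [mul_nonneg hx hx, pow_le_one₀ hx hx1 (n := 2)]
  have h2 : δ / 3 * x ^ 3 ≤ δ / 3 * x := mul_le_mul_of_nonneg_left h1 (by positivity)
  linarith

/-- one step down the tree -/
lemma lev_step (hC : IsCert q FX K G γX γA δ) (hq : 2 ≤ q) {lam : ℝ} (h0 : 0 ≤ lam)
    (h1 : lam < 1) (κ : List ℕ → ℕ) (j m : ℕ) {a b B : ℝ}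
    (ha : a = (lam ^ 2) ^ j * lev j κ (fun κ' => tr δ (tval q lam (m + 1) (cut (m + 1) κ'))))
    (hb : b = (lam ^ 2) ^ (j + 1) * lev (j + 1) κ (fun κ' => tr δ (tval q lam m (cut m κ'))))
    (hB : B = (lam ^ 2) ^ (j + 1) * levelSize (j + 1) κ) (hpos : 0 < a) :
    0 < b ∧ 0 < B ∧
      1 / b ^ 2 + 2 * ((δ / 3 * (1 - lam ^ 4)) / (1 + δ / 3) ^ 3) / B ^ 2 ≤ 1 / a ^ 2 := by
  have hδ := hC.δ_pos
  have hl4 : lam ^ 4 < 1 := pow_lt_one₀ h0 h1 (by norm_num)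
  have hl4' : 0 < 1 - lam ^ 4 := by linarith
  set T : (List ℕ → ℕ) → ℝ := fun κ' => tval q lam m (cut m κ') with hT
  have T0 : ∀ κ', 0 ≤ T κ' := fun κ' => tval_nonneg hC hq h0 h1 m _
  have T1 : ∀ κ', T κ' ≤ 1 := fun κ' => tval_le_one hC hq h0 h1 m _
  set k2 : ℝ := δ / 3 * (1 - lam ^ 4) with hk2
  have hk2p : 0 < k2 := by positivity
  set D : ℝ := 1 + δ / 3 with hD
  have hDp : 0 < D := by positivity
  -- the step
  have e1 : a ≤ b - k2 * ((lam ^ 2) ^ (j + 1) * lev (j + 1) κ (fun κ' => T κ' ^ 3)) := by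
    have e2 : lev j κ (fun κ' => tr δ (tval q lam (m + 1) (cut (m + 1) κ')))
        ≤ lev j κ (fun κ' => ∑ c : Fin (κ' []),
          (fun κ'' => lam ^ 2 * tr δ (T κ'') + (-(lam ^ 2 * k2)) * T κ'' ^ 3) (sub κ' c)) := by
      apply lev_mono
      intro κ'
      rw [cut_succ]
      refine (tval_succ hC hq h0 h1 m (κ' []) (fun c : Fin (κ' []) => cut m (sub κ' c))).trans
        (le_of_eq ?_)
      refine Finset.sum_congr rfl fun c _ => ?_
      simp only [tr, hT, hk2]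
      ring
    rw [← lev_succ' j κ (fun κ'' => lam ^ 2 * tr δ (T κ'') + (-(lam ^ 2 * k2)) * T κ'' ^ 3),
      lev_lin (j + 1) κ (fun κ'' => tr δ (T κ'')) (fun κ'' => T κ'' ^ 3)] at e2
    have hp : 0 ≤ (lam ^ 2) ^ j := by positivity
    rw [ha, hb]
    calc (lam ^ 2) ^ j * lev j κ (fun κ' => tr δ (tval q lam (m + 1) (cut (m + 1) κ')))
        ≤ (lam ^ 2) ^ j * (lam ^ 2 * lev (j + 1) κ (fun κ' => tr δ (T κ')) +
          (-(lam ^ 2 * k2)) * lev (j + 1) κ (fun κ' => T κ' ^ 3)) :=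
          mul_le_mul_of_nonneg_left e2 hp
      _ = _ := by rw [pow_succ]; ring
  have hc0 : 0 ≤ (lam ^ 2) ^ (j + 1) * lev (j + 1) κ (fun κ' => T κ' ^ 3) :=
    mul_nonneg (by positivity) (lev_nonneg _ _ fun κ' => pow_nonneg (T0 κ') 3)
  have hb0 : 0 < b := by nlinarith
  -- positivity of B
  have hbB : b ≤ D * B := by
    rw [hb, hB, ← lev_one]
    have e3 : lev (j + 1) κ (fun κ' => tr δ (T κ'))
        ≤ lev (j + 1) κ (fun κ' => D * (fun _ => (1 : ℝ)) κ' + 0 * (fun _ => (1 : ℝ)) κ') := by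
      apply lev_mono
      intro κ'
      have h3 : tr δ (T κ') ≤ D * T κ' := tr_le_mul hδ.le (T0 κ') (T1 κ')
      have h2 : D * T κ' ≤ D * 1 := mul_le_mul_of_nonneg_left (T1 κ') hDp.le
      simp only
      linarith
    rw [lev_lin, zero_mul, add_zero] at e3
    calc (lam ^ 2) ^ (j + 1) * lev (j + 1) κ (fun κ' => tr δ (T κ'))
        ≤ (lam ^ 2) ^ (j + 1) * (D * lev (j + 1) κ (fun _ => 1)) :=
          mul_le_mul_of_nonneg_left e3 (by positivity)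
      _ = _ := by ring
  have hB0 : 0 < B := by
    by_contra hcon
    have : D * B ≤ 0 := mul_nonpos_of_nonneg_of_nonpos hDp.le (not_lt.1 hcon)
    linarith
  have hlam0 : 0 < (lam ^ 2) ^ (j + 1) := by
    rcases (show (0 : ℝ) ≤ (lam ^ 2) ^ (j + 1) by positivity).eq_or_lt with h | h
    · rw [hB, ← h, zero_mul] at hB0
      exact absurd hB0 (lt_irrefl _)
    · exact h
  have hz : 0 < (levelSize (j + 1) κ : ℝ) := by
    rw [hB] at hB0
    exact (mul_pos_iff_of_pos_left hlam0).1 hB0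
  -- cube term
  have e4 := lev_cube (j + 1) κ T0 hz
  have e5 : b ≤ D * ((lam ^ 2) ^ (j + 1) * lev (j + 1) κ T) := by
    rw [hb]
    have e6 : lev (j + 1) κ (fun κ' => tr δ (T κ'))
        ≤ lev (j + 1) κ (fun κ' => D * T κ' + 0 * T κ') := by
      apply lev_mono
      intro κ'
      have h3 : tr δ (T κ') ≤ D * T κ' := tr_le_mul hδ.le (T0 κ') (T1 κ')
      linarith
    rw [lev_lin, zero_mul, add_zero] at e6
    calc (lam ^ 2) ^ (j + 1) * lev (j + 1) κ (fun κ' => tr δ (T κ'))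
        ≤ (lam ^ 2) ^ (j + 1) * (D * lev (j + 1) κ T) :=
          mul_le_mul_of_nonneg_left e6 (by positivity)
      _ = _ := by ring
  have e7 : b ^ 3 / D ^ 3 / B ^ 2 ≤ (lam ^ 2) ^ (j + 1) * lev (j + 1) κ (fun κ' => T κ' ^ 3) := by
    set L := (lam ^ 2) ^ (j + 1)
    set s := lev (j + 1) κ T
    set z : ℝ := (levelSize (j + 1) κ : ℝ)
    have hs0 : 0 ≤ s := lev_nonneg _ _ T0
    have e8 : b ^ 3 ≤ (D * (L * s)) ^ 3 := pow_le_pow_left₀ hb0.le e5 3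
    calc b ^ 3 / D ^ 3 / B ^ 2 ≤ (D * (L * s)) ^ 3 / D ^ 3 / B ^ 2 := by gcongr
      _ = L * (s ^ 3 / z ^ 2) := by
          rw [hB]
          field_simp
      _ ≤ _ := mul_le_mul_of_nonneg_left e4 hlam0.le
  have e9 : a ≤ b - k2 * (b ^ 3 / D ^ 3 / B ^ 2) := by
    have := mul_le_mul_of_nonneg_left e7 hk2p.le
    linarith
  refine ⟨hb0, hB0, ?_⟩
  -- inverse squares
  set k1 : ℝ := k2 / D ^ 3 with hk1
  have hk1p : 0 < k1 := by positivity
  set u : ℝ := k1 * b ^ 2 / B ^ 2 with hu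
  have hu0 : 0 < u := by positivity
  have e10 : a ≤ b * (1 - u) := by
    have : b - k2 * (b ^ 3 / D ^ 3 / B ^ 2) = b * (1 - u) := by
      rw [hu, hk1]
      field_simp
    rw [← this]
    exact e9
  have hu1 : 0 < 1 - u := by
    by_contra hcon
    have : b * (1 - u) ≤ 0 := mul_nonpos_of_nonneg_of_nonpos hb0.le (not_lt.1 hcon)
    linarith
  have e11 : a ^ 2 ≤ b ^ 2 * (1 - u) ^ 2 := by
    rw [← mul_pow]
    exact pow_le_pow_left₀ hpos.le e10 2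
  have e12 : (1 + 2 * u) * (1 - u) ^ 2 ≤ 1 := by nlinarith [mul_pos hu0 hu0]
  have e13 : 1 / b ^ 2 + 2 * k1 / B ^ 2 = (1 + 2 * u) / b ^ 2 := by
    rw [hu]
    field_simp
  rw [e13, div_le_div_iff₀ (by positivity) (by positivity), one_mul]
  calc (1 + 2 * u) * a ^ 2 ≤ (1 + 2 * u) * (b ^ 2 * (1 - u) ^ 2) :=
        mul_le_mul_of_nonneg_left e11 (by positivity)
    _ = b ^ 2 * ((1 + 2 * u) * (1 - u) ^ 2) := by ring
    _ ≤ b ^ 2 * 1 := mul_le_mul_of_nonneg_left e12 (by positivity)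
    _ = b ^ 2 := mul_one _

lemma lev_iter (hC : IsCert q FX K G γX γA δ) (hq : 2 ≤ q) {lam : ℝ} (h0 : 0 ≤ lam)
    (h1 : lam < 1) (κ : List ℕ → ℕ) : ∀ (j m : ℕ),
    0 < tr δ (tval q lam (m + j) (cut (m + j) κ)) →
    0 < (lam ^ 2) ^ j * lev j κ (fun κ' => tr δ (tval q lam m (cut m κ'))) ∧
    (∀ i < j, 0 < (lam ^ 2) ^ (i + 1) * (levelSize (i + 1) κ : ℝ)) ∧
    1 / ((lam ^ 2) ^ j * lev j κ (fun κ' => tr δ (tval q lam m (cut m κ')))) ^ 2 +
      ∑ i ∈ Finset.range j, 2 * ((δ / 3 * (1 - lam ^ 4)) / (1 + δ / 3) ^ 3) /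
        ((lam ^ 2) ^ (i + 1) * (levelSize (i + 1) κ : ℝ)) ^ 2
      ≤ 1 / (tr δ (tval q lam (m + j) (cut (m + j) κ))) ^ 2
  | 0, m, h => by
      refine ⟨by simpa [lev] using h, fun i hi => absurd hi (Nat.not_lt_zero i), ?_⟩
      simp [lev]
  | j + 1, m, h => by
      have e : m + (j + 1) = (m + 1) + j := by omega
      rw [e] at h ⊢
      obtain ⟨i1, i2, i3⟩ := lev_iter hC hq h0 h1 κ j (m + 1) h
      obtain ⟨s1, s2, s3⟩ := lev_step hC hq h0 h1 κ j m rfl rfl rfl i1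
      refine ⟨s1, fun i hi => ?_, ?_⟩
      · rcases Nat.lt_succ_iff_lt_or_eq.1 hi with hlt | rfl
        · exact i2 i hlt
        · exact s2
      · rw [Finset.sum_range_succ]
        linarith

/-- **Critical criterion.** If `∑_n (lam^(2n) |T_n|)^(-2) = ∞` then there is nonreconstruction. -/
theorem tree_nonreconstruction_crit (hC : IsCert q FX K G γX γA δ) (hq : 2 ≤ q) {lam : ℝ}
    (h0 : 0 ≤ lam) (h1 : lam < 1) {κ : List ℕ → ℕ}
    (h : ∑' n : ℕ, (ENNReal.ofReal ((lam ^ 2) ^ n * levelSize n κ))⁻¹ ^ 2 = ⊤) :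
    TreeNonreconstruction κ q lam := by
  have hδ := hC.δ_pos
  have hl4 : lam ^ 4 < 1 := pow_lt_one₀ h0 h1 (by norm_num)
  have hl4' : 0 < 1 - lam ^ 4 := by linarith
  set k1 : ℝ := (δ / 3 * (1 - lam ^ 4)) / (1 + δ / 3) ^ 3 with hk1
  have hk1p : 0 < k1 := by positivity
  refine treeNonreconstruction_of_tval hC hq h0 h1 ?_
  rw [Metric.tendsto_atTop]
  intro e he
  -- a large partial sum
  set R : ℝ := 1 + 1 / (2 * k1 * e ^ 2) with hR
  have hRlt : ENNReal.ofReal R < ∑' n : ℕ,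
      (ENNReal.ofReal ((lam ^ 2) ^ n * levelSize n κ))⁻¹ ^ 2 := by
    rw [h]
    exact ENNReal.ofReal_lt_top
  rw [ENNReal.tsum_eq_iSup_nat, lt_iSup_iff] at hRlt
  obtain ⟨M, hM⟩ := hRlt
  refine ⟨M, fun n hn => ?_⟩
  have hT0 := tval_nonneg hC hq h0 h1 n (cut n κ)
  rw [Real.dist_eq, sub_zero, abs_of_nonneg hT0]
  by_contra hcon
  rw [not_lt] at hcon
  have hy : e ≤ tr δ (tval q lam n (cut n κ)) := hcon.trans (le_tr hδ.le hT0)
  have hpos : 0 < tr δ (tval q lam (0 + n) (cut (0 + n) κ)) := by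
    rw [Nat.zero_add]
    linarith
  obtain ⟨i1, i2, i3⟩ := lev_iter hC hq h0 h1 κ n 0 hpos
  rw [Nat.zero_add] at i3
  -- all the terms are positive
  have hBpos : ∀ i, i ≤ n → 0 < (lam ^ 2) ^ i * (levelSize i κ : ℝ) := by
    intro i hi
    cases i with
    | zero => simp [levelSize]
    | succ i => exact i2 i (by omega)
  have hterm : ∀ i, i ≤ n → (ENNReal.ofReal ((lam ^ 2) ^ i * levelSize i κ))⁻¹ ^ 2
      = ENNReal.ofReal (1 / ((lam ^ 2) ^ i * levelSize i κ) ^ 2) := by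
    intro i hi
    have := hBpos i hi
    rw [← ENNReal.ofReal_inv_of_pos this, ← ENNReal.ofReal_pow (by positivity)]
    congr 1
    rw [inv_pow, one_div]
  have hsum : ∑ i ∈ Finset.range (n + 1), (ENNReal.ofReal ((lam ^ 2) ^ i * levelSize i κ))⁻¹ ^ 2
      = ENNReal.ofReal (∑ i ∈ Finset.range (n + 1), 1 / ((lam ^ 2) ^ i * levelSize i κ) ^ 2) := by
    rw [ENNReal.ofReal_sum_of_nonneg fun i hi => by positivity]
    refine Finset.sum_congr rfl fun i hi => ?_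
    exact hterm i (by rw [Finset.mem_range] at hi; omega)
  have hMle : ∑ i ∈ Finset.range M, (ENNReal.ofReal ((lam ^ 2) ^ i * levelSize i κ))⁻¹ ^ 2
      ≤ ∑ i ∈ Finset.range (n + 1), (ENNReal.ofReal ((lam ^ 2) ^ i * levelSize i κ))⁻¹ ^ 2 :=
    Finset.sum_le_sum_of_subset (Finset.range_subset_range.2 (by omega))
  have hR2 := lt_of_lt_of_le hM hMle
  rw [hsum, ENNReal.ofReal_lt_ofReal_iff_of_nonneg (by positivity)] at hR2
  rw [Finset.sum_range_succ'] at hR2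
  have hz : 1 / ((lam ^ 2) ^ 0 * (levelSize 0 κ : ℝ)) ^ 2 = 1 := by simp [levelSize]
  rw [hz] at hR2
  have hS : 1 / (2 * k1 * e ^ 2) < ∑ i ∈ Finset.range n,
      1 / ((lam ^ 2) ^ (i + 1) * (levelSize (i + 1) κ : ℝ)) ^ 2 := by
    rw [hR] at hR2
    linarith
  have hI : 2 * k1 * ∑ i ∈ Finset.range n,
      1 / ((lam ^ 2) ^ (i + 1) * (levelSize (i + 1) κ : ℝ)) ^ 2
      ≤ 1 / (tr δ (tval q lam n (cut n κ))) ^ 2 := by
    refine le_trans (le_of_eq ?_) ((le_add_of_nonneg_left (by positivity)).trans i3)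
    rw [Finset.mul_sum]
    refine Finset.sum_congr rfl fun i _ => ?_
    ring
  have hJ : 1 / (tr δ (tval q lam n (cut n κ))) ^ 2 ≤ 1 / e ^ 2 := by
    have : e ^ 2 ≤ (tr δ (tval q lam n (cut n κ))) ^ 2 := pow_le_pow_left₀ he.le hy 2
    exact one_div_le_one_div_of_le (by positivity) this
  have hK : 2 * k1 * (1 / (2 * k1 * e ^ 2)) = 1 / e ^ 2 := by field_simp
  have hL := mul_lt_mul_of_pos_left hS (show 0 < 2 * k1 by positivity)
  linarith

end Vale.Agent.P154.UT
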