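import Mathlib
import Vale.Agent.P154.H928.Flow

/-! Galton-Watson trees with an arbitrary offspring law. -/

namespace Vale.Agent.P154.UT

open scoped ENNReal
open Filter Topology Vale.Agent.P154.KS

variable {q : ℕ}

/-- Laplace transform of the strength of the flow -/
noncomputable def lap (ν : ℕ → ℝ) (β θ : ℝ) (n : ℕ) : ℝ≥0∞ :=
  expT ν n fun t => ENNReal.ofReal (Real.exp (-(θ * mf β n t)))

lemma exp_min {θ y : ℝ} (hθ : 0 ≤ θ) (hy : 0 ≤ y) :
    Real.exp (-(θ * min 1 y)) ≤ Real.exp (-θ) + (1 - Real.exp (-θ)) * Real.exp (-(θ * y)) := by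
  have h1 : Real.exp (-θ) ≤ 1 := Real.exp_le_one_iff.2 (by linarith)
  have h2 : Real.exp (-(θ * y)) ≤ 1 := Real.exp_le_one_iff.2 (by nlinarith)
  have h3 := Real.exp_pos (-(θ * y))
  have h4 := Real.exp_pos (-θ)
  rcases le_total 1 y with h | h
  · rw [min_eq_left h, mul_one]
    nlinarith
  · rw [min_eq_right h]
    nlinarith

lemma exp_convex {β M θ : ℝ} (hβ : 1 ≤ β) :
    Real.exp (-(θ * (1 / β * M))) ≤ (1 - 1 / β) + (1 / β) * Real.exp (-(θ * M)) := by
  have hβ0 : 0 < β := by linarith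
  have ha : 0 ≤ 1 / β := by positivity
  have hb : 0 ≤ 1 - 1 / β := by
    rw [sub_nonneg, div_le_one hβ0]
    exact hβ
  have h := convexOn_exp.2 (Set.mem_univ (-(θ * M))) (Set.mem_univ (0 : ℝ)) ha hb (by ring)
  simp only [smul_eq_mul, mul_zero, add_zero, Real.exp_zero, mul_one] at h
  have e : -(θ * (1 / β * M)) = 1 / β * (-(θ * M)) := by ring
  rw [e]
  linarith

lemma one_sub_pow_le {y : ℝ} (hy0 : 0 ≤ y) (hy1 : y ≤ 1) (k : ℕ) :
    (1 - y) ^ k ≤ 1 - k * y + (k * y) ^ 2 := by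
  induction k with
  | zero => simp
  | succ k ih =>
    have h0 : 0 ≤ 1 - y := by linarith
    have hk : (0 : ℝ) ≤ k := Nat.cast_nonneg k
    calc (1 - y) ^ (k + 1) = (1 - y) ^ k * (1 - y) := pow_succ _ _
      _ ≤ (1 - k * y + (k * y) ^ 2) * (1 - y) := mul_le_mul_of_nonneg_right ih h0
      _ ≤ _ := by
        push_cast
        nlinarith [mul_nonneg hk hy0, mul_nonneg (mul_nonneg hk hy0) hy0, sq_nonneg y,
          mul_nonneg (mul_nonneg (mul_nonneg hk hk) (sq_nonneg y)) hy0, mul_nonneg hk (sq_nonneg y)]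

lemma gen_le {ν : ℕ → ℝ} (hν : ∀ k, 0 ≤ ν k) (h1 : HasSum ν 1) {y : ℝ} (hy0 : 0 ≤ y)
    (hy1 : y ≤ 1) (L : ℕ) :
    ∑' k : ℕ, ENNReal.ofReal (ν k) * (ENNReal.ofReal (1 - y)) ^ k ≤
      ENNReal.ofReal (1 - (∑ k ∈ Finset.range L, ν k * k) * y * (1 - L * y)) := by
  set c : ℕ → ℝ := fun k => if k ∈ Finset.range L then ν k * k * (y * (1 - L * y)) else 0 with hc
  have hc1 : HasSum c (∑ k ∈ Finset.range L, ν k * k * (y * (1 - L * y))) := by
    have : ∑ k ∈ Finset.range L, ν k * k * (y * (1 - L * y)) = ∑ k ∈ Finset.range L, c k := by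
      refine Finset.sum_congr rfl fun k hk => ?_
      simp only [hc]
      rw [if_pos hk]
    rw [this]
    exact hasSum_sum_of_ne_finset_zero fun k hk => by simp only [hc]; rw [if_neg hk]
  have hp : ∀ k, ν k * (1 - y) ^ k ≤ ν k - c k := by
    intro k
    simp only [hc]
    by_cases hk : k ∈ Finset.range L
    · rw [if_pos hk]
      have hkL : (k : ℝ) ≤ L := by exact_mod_cast (Finset.mem_range.1 hk).le
      have hk0 : (0 : ℝ) ≤ k := Nat.cast_nonneg k
      have h2 := one_sub_pow_le hy0 hy1 k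
      have h3 : ((k : ℝ) * y) ^ 2 ≤ k * y * (L * y) := by
        have : (k : ℝ) * y ≤ L * y := mul_le_mul_of_nonneg_right hkL hy0
        nlinarith [mul_nonneg hk0 hy0]
      have h4 : (1 - y) ^ k ≤ 1 - k * (y * (1 - L * y)) := by nlinarith
      calc ν k * (1 - y) ^ k ≤ ν k * (1 - k * (y * (1 - L * y))) :=
            mul_le_mul_of_nonneg_left h4 (hν k)
        _ = _ := by ring
    · rw [if_neg hk, sub_zero]
      have : (1 - y) ^ k ≤ 1 := pow_le_one₀ (by linarith) (by linarith)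
      nlinarith [hν k]
  have hs : Summable fun k => ν k * (1 - y) ^ k := by
    refine Summable.of_nonneg_of_le (fun k => mul_nonneg (hν k) (pow_nonneg (by linarith) k))
      (fun k => ?_) h1.summable
    have : (1 - y) ^ k ≤ 1 := pow_le_one₀ (by linarith) (by linarith)
    nlinarith [hν k]
  have he : ∀ k : ℕ, ENNReal.ofReal (ν k) * (ENNReal.ofReal (1 - y)) ^ k
      = ENNReal.ofReal (ν k * (1 - y) ^ k) := by
    intro k
    rw [ENNReal.ofReal_mul (hν k), ENNReal.ofReal_pow (by linarith)]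
  simp_rw [he]
  rw [← ENNReal.ofReal_tsum_of_nonneg
    (fun k => mul_nonneg (hν k) (pow_nonneg (by linarith) k)) hs]
  apply ENNReal.ofReal_le_ofReal
  have h5 : ∑' k, ν k * (1 - y) ^ k ≤ ∑' k, (ν k - c k) :=
    hs.tsum_le_tsum hp (h1.summable.sub hc1.summable)
  refine h5.trans (le_of_eq ?_)
  rw [(h1.sub hc1).tsum_eq, ← Finset.sum_mul]
  ring

/-- One step of the recursion for the Laplace transform. -/
lemma lap_succ {ν : ℕ → ℝ} (hν : ∀ k, 0 ≤ ν k) (h1 : ∑' k, ENNReal.ofReal (ν k) = 1)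
    {β θ : ℝ} (hβ : 1 ≤ β) (hθ : 0 ≤ θ) (n : ℕ) :
    lap ν β θ (n + 1) ≤ ENNReal.ofReal (Real.exp (-θ)) + ENNReal.ofReal (1 - Real.exp (-θ)) *
      ∑' k : ℕ, ENNReal.ofReal (ν k) *
        (ENNReal.ofReal (1 - 1 / β) + ENNReal.ofReal (1 / β) * lap ν β θ n) ^ k := by
  have hβ0 : 0 < β := by linarith
  have hs0 : 0 ≤ 1 - Real.exp (-θ) := by
    have : Real.exp (-θ) ≤ 1 := Real.exp_le_one_iff.2 (by linarith)
    linarith
  have hb : 0 ≤ 1 - 1 / β := by
    rw [sub_nonneg, div_le_one hβ0]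
    exact hβ
  set h : Tree n → ℝ≥0∞ := fun t => ENNReal.ofReal (Real.exp (-(θ * (1 / β * mf β n t)))) with hh
  set g : Tree (n + 1) → ℝ≥0∞ := fun t => ∏ c : Fin t.1, h (t.2 c) with hg
  have e1 : lap ν β θ (n + 1) ≤ expT ν (n + 1) (fun t => ENNReal.ofReal (Real.exp (-θ)) * 1 +
      ENNReal.ofReal (1 - Real.exp (-θ)) * g t) := by
    apply expT_mono
    intro t
    obtain ⟨k, s, rfl⟩ := exists_node t
    have hS : 0 ≤ 1 / β * ∑ c, mf β n (s c) :=
      mul_nonneg (by positivity) (Finset.sum_nonneg fun c _ => mf_nonneg hβ0 n _)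
    have e2 := exp_min hθ hS
    rw [mf_succ]
    have e3 : Real.exp (-(θ * (1 / β * ∑ c, mf β n (s c))))
        = ∏ c, Real.exp (-(θ * (1 / β * mf β n (s c)))) := by
      rw [← Real.exp_sum]
      congr 1
      rw [Finset.mul_sum, Finset.mul_sum, ← Finset.sum_neg_distrib]
    have e4 : g (node s) = ENNReal.ofReal (Real.exp (-(θ * (1 / β * ∑ c, mf β n (s c))))) := by
      rw [e3, ENNReal.ofReal_prod_of_nonneg (fun c _ => (Real.exp_pos _).le)]
      rfl
    rw [e4, mul_one, ← ENNReal.ofReal_mul hs0,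
      ← ENNReal.ofReal_add (Real.exp_pos _).le (mul_nonneg hs0 (Real.exp_pos _).le)]
    exact ENNReal.ofReal_le_ofReal e2
  have e5 : expT ν n h ≤ ENNReal.ofReal (1 - 1 / β) + ENNReal.ofReal (1 / β) * lap ν β θ n := by
    have : expT ν n h ≤ expT ν n (fun t => ENNReal.ofReal (1 - 1 / β) * 1 +
        ENNReal.ofReal (1 / β) * ENNReal.ofReal (Real.exp (-(θ * mf β n t)))) := by
      apply expT_mono
      intro t
      rw [mul_one, ← ENNReal.ofReal_mul (by positivity),
        ← ENNReal.ofReal_add hb (by positivity)]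
      exact ENNReal.ofReal_le_ofReal (exp_convex hβ)
    rw [expT_add, expT_const_mul, expT_const_mul, expT_one hν h1, mul_one] at this
    exact this
  rw [expT_add, expT_const_mul, expT_const_mul, expT_one hν h1, mul_one,
    expT_succ_prod hν n h g (fun k t => rfl)] at e1
  refine e1.trans ?_
  gcongr

lemma exists_partial_mean {ν : ℕ → ℝ} (hν : ∀ k, 0 ≤ ν k) {β : ℝ} (hβ : 0 < β)
    (h : ENNReal.ofReal β < offspringMean ν) : ∃ L : ℕ, β < ∑ k ∈ Finset.range L, ν k * k := by
  unfold offspringMean at h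
  rw [ENNReal.tsum_eq_iSup_nat, lt_iSup_iff] at h
  obtain ⟨L, hL⟩ := h
  refine ⟨L, ?_⟩
  have e : ∑ k ∈ Finset.range L, ENNReal.ofReal (ν k) * (k : ℝ≥0∞)
      = ENNReal.ofReal (∑ k ∈ Finset.range L, ν k * k) := by
    rw [ENNReal.ofReal_sum_of_nonneg fun k _ => mul_nonneg (hν k) (Nat.cast_nonneg k)]
    refine Finset.sum_congr rfl fun k _ => ?_
    rw [ENNReal.ofReal_mul (hν k), ENNReal.ofReal_natCast]
  rw [e] at hL
  exact (ENNReal.ofReal_lt_ofReal_iff_of_nonneg hβ.le).1 hL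

/-- If the mean exceeds `β`, the strength of the flow stays bounded below in mean. -/
lemma exists_lap_le {ν : ℕ → ℝ} (hν : ∀ k, 0 ≤ ν k) (h1 : HasSum ν 1) {β : ℝ} (hβ : 1 ≤ β)
    (h : ENNReal.ofReal β < offspringMean ν) :
    ∃ θ x : ℝ, 0 < θ ∧ 0 < x ∧ x ≤ 1 ∧ ∀ n, lap ν β θ n ≤ ENNReal.ofReal (1 - x) := by
  have hβ0 : 0 < β := by linarith
  have h1' : ∑' k, ENNReal.ofReal (ν k) = 1 := by
    rw [tsum_ofReal_of_hasSum hν h1, ENNReal.ofReal_one]
  obtain ⟨L, hL⟩ := exists_partial_mean hν hβ0 h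
  set m : ℝ := ∑ k ∈ Finset.range L, ν k * k with hm
  have hLpos : (0 : ℝ) < L := by
    rcases Nat.eq_zero_or_pos L with h0 | h0
    · exfalso
      rw [hm, h0] at hL
      simp at hL
      linarith
    · exact_mod_cast h0
  set r : ℝ := m / β with hr
  have hr1 : 1 < r := by rw [hr, one_lt_div hβ0]; exact hL
  have hr0 : 0 < r := by linarith
  set θ : ℝ := Real.log (2 * r / (r - 1)) with hθ
  have hfrac : 1 < 2 * r / (r - 1) := by
    rw [one_lt_div (by linarith)]
    linarith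
  have hθ0 : 0 < θ := Real.log_pos hfrac
  have hexp : Real.exp (-θ) = (r - 1) / (2 * r) := by
    rw [Real.exp_neg, hθ, Real.exp_log (by linarith), inv_div]
  set s : ℝ := 1 - Real.exp (-θ) with hs
  have hs' : s = (r + 1) / (2 * r) := by
    rw [hs, hexp]
    field_simp
    ring
  have hs0 : 0 < s := by rw [hs']; positivity
  have hs1 : s ≤ 1 := by
    rw [hs]
    have := Real.exp_pos (-θ)
    linarith
  have hsr : 1 < s * r := by
    rw [hs']
    have : (r + 1) / (2 * r) * r = (r + 1) / 2 := by field_simp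
    rw [this]
    linarith
  have hsr0 : 0 < s * r := by linarith
  set x : ℝ := min s (β / L * (1 - 1 / (s * r))) with hx
  have h1sr : 0 < 1 - 1 / (s * r) := by
    rw [sub_pos, div_lt_one hsr0]
    exact hsr
  have hx0 : 0 < x := lt_min hs0 (by positivity)
  have hxs : x ≤ s := min_le_left _ _
  have hx1 : x ≤ 1 := hxs.trans hs1
  have hxL : L * (x / β) ≤ 1 - 1 / (s * r) := by
    have h2 : x ≤ β / L * (1 - 1 / (s * r)) := min_le_right _ _
    calc L * (x / β) ≤ L * ((β / L * (1 - 1 / (s * r))) / β) := by gcongr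
      _ = 1 - 1 / (s * r) := by field_simp
  refine ⟨θ, x, hθ0, hx0, hx1, fun n => ?_⟩
  induction n with
  | zero =>
    unfold lap
    rw [expT_zero, mf_zero, mul_one]
    apply ENNReal.ofReal_le_ofReal
    have : Real.exp (-θ) = 1 - s := by rw [hs]; ring
    rw [this]
    linarith
  | succ n ih =>
    have hy0 : 0 ≤ x / β := by positivity
    have hy1 : x / β ≤ 1 := by
      rw [div_le_one hβ0]
      linarith
    have hb : 0 ≤ 1 - 1 / β := by
      rw [sub_nonneg, div_le_one hβ0]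
      exact hβ
    have e1 : ENNReal.ofReal (1 - 1 / β) + ENNReal.ofReal (1 / β) * lap ν β θ n
        ≤ ENNReal.ofReal (1 - x / β) := by
      calc ENNReal.ofReal (1 - 1 / β) + ENNReal.ofReal (1 / β) * lap ν β θ n
          ≤ ENNReal.ofReal (1 - 1 / β) + ENNReal.ofReal (1 / β) * ENNReal.ofReal (1 - x) := by
            gcongr
        _ = ENNReal.ofReal (1 - x / β) := by
            rw [← ENNReal.ofReal_mul (by positivity), ← ENNReal.ofReal_add hb
              (mul_nonneg (by positivity) (by linarith))]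
            congr 1
            ring
    have e2 := lap_succ hν h1' hβ hθ0.le n
    refine e2.trans ?_
    calc ENNReal.ofReal (Real.exp (-θ)) + ENNReal.ofReal (1 - Real.exp (-θ)) *
          ∑' k : ℕ, ENNReal.ofReal (ν k) *
            (ENNReal.ofReal (1 - 1 / β) + ENNReal.ofReal (1 / β) * lap ν β θ n) ^ k
        ≤ ENNReal.ofReal (Real.exp (-θ)) + ENNReal.ofReal s *
          ∑' k : ℕ, ENNReal.ofReal (ν k) * (ENNReal.ofReal (1 - x / β)) ^ k := by
          gcongr
      _ ≤ ENNReal.ofReal (Real.exp (-θ)) + ENNReal.ofReal s *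
          ENNReal.ofReal (1 - m * (x / β) * (1 - L * (x / β))) := by
          gcongr
          exact gen_le hν h1 hy0 hy1 L
      _ ≤ ENNReal.ofReal (1 - x) := by
          have hz : 1 / (s * r) ≤ 1 - L * (x / β) := by linarith
          have hz0 : 0 ≤ 1 - L * (x / β) := le_trans (by positivity) hz
          have hge : x ≤ s * (m * (x / β) * (1 - L * (x / β))) := by
            have e : s * (m * (x / β) * (1 - L * (x / β))) = x * (s * r) * (1 - L * (x / β)) := by
              rw [hr]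
              field_simp
            rw [e]
            calc x = x * (s * r) * (1 / (s * r)) := by field_simp
              _ ≤ x * (s * r) * (1 - L * (x / β)) :=
                mul_le_mul_of_nonneg_left hz (by positivity)
          have hex : Real.exp (-θ) = 1 - s := by rw [hs]; ring
          by_cases hneg : 0 ≤ 1 - m * (x / β) * (1 - L * (x / β))
          · rw [← ENNReal.ofReal_mul hs0.le, ← ENNReal.ofReal_add (Real.exp_pos _).le
              (mul_nonneg hs0.le hneg)]
            apply ENNReal.ofReal_le_ofReal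
            rw [hex]
            linarith
          · rw [ENNReal.ofReal_of_nonpos (not_le.1 hneg).le, mul_zero, add_zero, hex]
            apply ENNReal.ofReal_le_ofReal
            linarith

/-- Above the Kesten-Stigum bound there is reconstruction, for every offspring law. -/
theorem gw_reconstruction {ν : ℕ → ℝ} (hν : ∀ k, 0 ≤ ν k) (h1 : HasSum ν 1) (hq : 2 ≤ q)
    {lam : ℝ} (hl : -1 / ((q : ℝ) - 1) ≤ lam) (hl1 : lam ≤ 1)
    (hm : 1 < offspringMean ν * ENNReal.ofReal (lam ^ 2)) : Reconstruction ν q lam := by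
  have hq' : (2 : ℝ) ≤ q := by exact_mod_cast hq
  have h1' : ∑' k, ENNReal.ofReal (ν k) = 1 := by
    rw [tsum_ofReal_of_hasSum hν h1, ENNReal.ofReal_one]
  have hl0 : lam ≠ 0 := by
    rintro rfl
    simp at hm
  have hl2 : 0 < lam ^ 2 := by positivity
  have hm2 : ENNReal.ofReal (1 / lam ^ 2) < offspringMean ν := by
    rw [ENNReal.ofReal_div_of_pos hl2, ENNReal.ofReal_one]
    rw [ENNReal.div_lt_iff (Or.inl (ENNReal.ofReal_pos.2 hl2).ne') (Or.inl ENNReal.ofReal_ne_top)]
    exact hm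
  obtain ⟨β', hβ1', hβ2'⟩ := ENNReal.lt_iff_exists_nnreal_btwn.1 hm2
  set β : ℝ := NNReal.toReal β' with hβdef
  have hβ2 : ENNReal.ofReal β < offspringMean ν := by
    rw [hβdef, ENNReal.ofReal_coe_nnreal]; exact hβ2'
  have hβ1 : 1 / lam ^ 2 < β := by
    rw [← ENNReal.ofReal_coe_nnreal] at hβ1'
    exact (ENNReal.ofReal_lt_ofReal_iff_of_nonneg (by positivity)).1 hβ1'
  have hlam1 : lam ^ 2 ≤ 1 := by
    have : -1 ≤ lam := by
      refine le_trans ?_ hl
      rw [le_div_iff₀ (by linarith)]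
      linarith
    nlinarith
  have hβ : 1 ≤ β := by
    have : 1 ≤ 1 / lam ^ 2 := by
      rw [le_div_iff₀ hl2]
      linarith
    linarith
  have hβ0 : 0 < β := by linarith
  have hb : 1 < β * lam ^ 2 := by
    rw [div_lt_iff₀ hl2] at hβ1
    exact hβ1
  obtain ⟨θ, x, hθ, hx, hx1, hlap⟩ := exists_lap_le hν h1 hβ hβ2
  set c : ℝ := (1 - 1 / (β * lam ^ 2)) / (2 * q) with hc
  have hc0 : 0 < c := by
    have : 0 < 1 - 1 / (β * lam ^ 2) := by
      rw [sub_pos, div_lt_one (by positivity)]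
      exact hb
    positivity
  refine reconstruction_of_le (by omega) hl hl1 hν h1 (c := c * (x / θ)) (by positivity) fun n => ?_
  rw [advantage_eq hν (KS.potts_nonneg hq hl hl1) n]
  -- expectation of the flow
  set Em : ℝ≥0∞ := expT ν n fun t => ENNReal.ofReal (mf β n t) with hEm
  have hEm1 : Em ≤ 1 := by
    rw [← expT_one hν h1' n]
    apply expT_mono
    intro t
    exact ENNReal.ofReal_le_one.2 (mf_le_one n t)
  have hEmtop : Em ≠ ⊤ := ne_top_of_le_ne_top ENNReal.one_ne_top hEm1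
  have k1 : (1 : ℝ≥0∞) ≤ ENNReal.ofReal θ * Em + lap ν β θ n := by
    rw [← expT_one hν h1' n, hEm, lap, ← expT_const_mul, ← expT_add]
    apply expT_mono
    intro t
    rw [← ENNReal.ofReal_mul hθ.le, ← ENNReal.ofReal_add
      (mul_nonneg hθ.le (mf_nonneg hβ0 n t)) (Real.exp_pos _).le, ← ENNReal.ofReal_one]
    apply ENNReal.ofReal_le_ofReal
    have := Real.add_one_le_exp (-(θ * mf β n t))
    linarith
  have k2 : x / θ ≤ Em.toReal := by
    have k3 : (1 : ℝ≥0∞) ≤ ENNReal.ofReal θ * Em + ENNReal.ofReal (1 - x) :=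
      k1.trans (by gcongr; exact hlap n)
    have k4 := ENNReal.toReal_mono (by
      refine ENNReal.add_ne_top.2 ⟨ENNReal.mul_ne_top ENNReal.ofReal_ne_top hEmtop,
        ENNReal.ofReal_ne_top⟩) k3
    rw [ENNReal.toReal_one, ENNReal.toReal_add (ENNReal.mul_ne_top ENNReal.ofReal_ne_top hEmtop)
      ENNReal.ofReal_ne_top, ENNReal.toReal_mul, ENNReal.toReal_ofReal hθ.le,
      ENNReal.toReal_ofReal (by linarith)] at k4
    rw [div_le_iff₀ hθ]
    linarith
  have k5 : ENNReal.ofReal c * Em ≤ expT ν n fun t => ENNReal.ofReal (tadv q lam n t) := by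
    rw [hEm, ← expT_const_mul]
    apply expT_mono
    intro t
    rw [← ENNReal.ofReal_mul hc0.le]
    exact ENNReal.ofReal_le_ofReal (mf_le_treeAdv hq hβ0 hl hl1 hb n t)
  have k6 : expT ν n (fun t => ENNReal.ofReal (tadv q lam n t)) ≠ ⊤ := by
    refine ne_top_of_le_ne_top ENNReal.one_ne_top ?_
    rw [← expT_one hν h1' n]
    apply expT_mono
    intro t
    exact ENNReal.ofReal_le_one.2 (treeAdv_le_one hq hl hl1 n t)
  have k7 := ENNReal.toReal_mono k6 k5
  rw [ENNReal.toReal_mul, ENNReal.toReal_ofReal hc0.le] at k7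
  refine le_trans ?_ k7
  exact mul_le_mul_of_nonneg_left k2 hc0.le

variable {FX K G : (Fin q → ℝ) → ℝ} {γX γA δ : ℝ}

lemma tval_zero_lam (hC : IsCert q FX K G γX γA δ) (hq : 2 ≤ q) (n : ℕ) (t : Tree (n + 1)) :
    tval q 0 (n + 1) t = 0 := by
  obtain ⟨k, s, rfl⟩ := exists_node t
  have h0 := tval_nonneg hC hq le_rfl zero_lt_one (n + 1) (node s)
  have h1 := tval_succ hC hq le_rfl zero_lt_one n k s
  have h2 : ∑ c, tr δ ((0 : ℝ) ^ 2 * tval q 0 n (s c)) = 0 := by
    refine Finset.sum_eq_zero fun c _ => ?_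
    simp [tr]
  rw [h2] at h1
  have h3 : tval q 0 (n + 1) (node s) ≤ tr δ (tval q 0 (n + 1) (node s)) := by
    unfold tr
    have := hC.δ_pos
    have : 0 ≤ δ / 3 * tval q 0 (n + 1) (node s) ^ 3 := by positivity
    linarith
  have h4 : tr δ (tval q 0 (n + 1) (node s)) ≤ 0 := h1
  exact le_antisymm (h3.trans h4) h0

/-- At and below the Kesten-Stigum bound there is nonreconstruction, for every offspring law. -/
theorem gw_nonreconstruction (hC : IsCert q FX K G γX γA δ) (hq : 2 ≤ q) {ν : ℕ → ℝ}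
    (hν : ∀ k, 0 ≤ ν k) (h1 : HasSum ν 1) {lam : ℝ} (h0 : 0 ≤ lam) (hl1 : lam < 1)
    (hm : offspringMean ν * ENNReal.ofReal (lam ^ 2) ≤ 1) : Nonreconstruction ν q lam := by
  have h1' : ∑' k, ENNReal.ofReal (ν k) = 1 := by
    rw [tsum_ofReal_of_hasSum hν h1, ENNReal.ofReal_one]
  rcases h0.eq_or_lt with hz | hpos
  · subst hz
    have hl : -1 / ((q : ℝ) - 1) ≤ 0 := neg_inv_le_zero hq
    refine nonrec_of_eval hν h1' hq (KS.potts_nonneg hq hl zero_le_one) ?_
    rw [← tendsto_add_atTop_iff_nat 1]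
    have : ∀ n, eval' ν q 0 (n + 1) = 0 := by
      intro n
      unfold eval'
      simp_rw [tval_zero_lam hC hq]
      simp [expT]
    simp_rw [this]
    exact tendsto_const_nhds
  · have hl2 : 0 < lam ^ 2 := by positivity
    have hfin : offspringMean ν ≠ ⊤ := by
      intro h
      rw [h, ENNReal.top_mul (ENNReal.ofReal_pos.2 hl2).ne'] at hm
      exact absurd hm (by simp)
    have hm1 : ∑' k : ℕ, ENNReal.ofReal (ν k) * k = ENNReal.ofReal (offspringMean ν).toReal := by
      rw [ENNReal.ofReal_toReal hfin]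
      rfl
    refine nonrec_of_cert hC hq hν h1' ENNReal.toReal_nonneg hm1 h0 hl1 ?_
    have h2 := ENNReal.toReal_mono ENNReal.one_ne_top hm
    rw [ENNReal.toReal_mul, ENNReal.toReal_ofReal hl2.le, ENNReal.toReal_one] at h2
    exact h2

end Vale.Agent.P154.UT
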